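import Vale.Agent.Lib.P067.Defs

/-!
# P067 B: averaging, the counting half

Let `D = ∑_{J'} #{x | dl g J' x ≠ 0}` (sum over the types `J'` with `i+2` elements disjoint from `J0`). For `w ∈ Γ` let
`N_w = ∑_J #{x | (g - dl (b w)) J x ≠ 0}` (types `J` with `i+1` elements disjoint from `J0`). By hypothesis
`N_w ≤ ∑_J ∑_x ∑_{p ∈ B J (w⁻¹ x)} [dl g p.1 (w p.2) ≠ 0]`. Sum over `w`, and substitute `x = w z` (`z = w⁻¹ x`):
`∑_w N_w ≤ ∑_J ∑_z ∑_{p ∈ B J z} #{w | dl g p.1 (w p.2) ≠ 0} = ∑_J ∑_z ∑_{p ∈ B J z} #{y | dl g p.1 y ≠ 0} ≤ 2^|S| |Γ| Mc D`.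
So some `w` has `N_w ≤ 2^|S| Mc D`. As `H s = ⊤` for `s ∈ J0`, `HH H J0 = ⊤` and `nm H J0 x i f = (∑_J #{y | f J y ≠ 0}) / |Γ|` for
every `x` (translation).
-/

namespace Vale.P067.PB

open scoped Classical

private theorem cnt {Γ : Type*} [Fintype Γ] (P : Γ → Prop) [DecidablePred P] :
    Nat.card {y : Γ // P y} = ∑ y, if P y then 1 else 0 := by
  rw [Nat.card_eq_fintype_card, Fintype.card_subtype, Finset.card_filter]

private theorem avg_exists {Γ : Type*} [Fintype Γ] [Nonempty Γ] (N : Γ → ℕ) (K : ℕ)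
    (h : ∑ w, N w ≤ Fintype.card Γ * K) : ∃ w, N w ≤ K := by
  obtain ⟨w, _, hw⟩ := Finset.exists_le_of_sum_le (s := (Finset.univ : Finset Γ)) (f := N)
    (g := fun _ => K) Finset.univ_nonempty (by
      rw [Finset.sum_const, Finset.card_univ, smul_eq_mul]
      exact h)
  exact ⟨w, hw⟩

theorem nm_top {S Γ : Type*} [Fintype S] [Group Γ] [Finite Γ] (H : S → Subgroup Γ) (J0 : Finset S)
    (hH0 : ∀ s ∈ J0, H s = ⊤) (x : Γ) (i : ℕ) (f : Finset S → Γ → ZMod 2) :
    nm H J0 x i f =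
      (∑ J ∈ (J0ᶜ).powersetCard i, (Nat.card {y : Γ // f J y ≠ 0} : ℝ)) / Nat.card Γ := by
  let _ : Fintype Γ := Fintype.ofFinite Γ
  have hHH : HH H J0 = ⊤ := by
    unfold HH
    exact iInf₂_eq_top.2 hH0
  have hav : ∀ φ : Γ → ℝ, av H J0 x φ = (∑ y, φ y) / Nat.card Γ := by
    intro φ
    unfold av
    rw [hHH]
    have h1 : (∑ᶠ h : (⊤ : Subgroup Γ), φ (x * h)) = ∑ᶠ y : Γ, φ y :=
      finsum_comp_equiv ((Subgroup.topEquiv (G := Γ)).toEquiv.trans (Equiv.mulLeft x))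
    rw [h1, finsum_eq_sum_of_fintype, Nat.card_congr (Subgroup.topEquiv (G := Γ)).toEquiv]
  unfold nm
  rw [Finset.sum_div]
  refine Finset.sum_congr rfl fun J _ => ?_
  rw [hav, cnt]
  congr 1
  push_cast
  refine Finset.sum_congr rfl fun y _ => ?_
  by_cases hy : f J y = 0 <;> simp [hy]

theorem linkExp_of_bw {S Γ : Type*} [Fintype S] [Group Γ] [Finite Γ] (H : S → Subgroup Γ)
    (J0 : Finset S) (hH0 : ∀ s ∈ J0, H s = ⊤) (i Mc : ℕ)
    (h : ∀ g : Finset S → Γ → ZMod 2, InvL H J0 (i + 1) g →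
      ∃ (b : Γ → Finset S → Γ → ZMod 2) (B : Finset S → Γ → Finset (Finset S × Γ)),
        (∀ w, InvL H J0 i (b w)) ∧ (∀ J z, (B J z).card ≤ Mc) ∧
        (∀ J z, ∀ p ∈ B J z, Disjoint p.1 J0 ∧ p.1.card = i + 2) ∧
        ∀ w J x, Disjoint J J0 → J.card = i + 1 → (g - dl (b w)) J x ≠ 0 →
          ∃ p ∈ B J (w⁻¹ * x), dl g p.1 (w * p.2) ≠ 0) :
    LinkExp H J0 i (1 / (2 ^ Fintype.card S * (Mc + 1))) := by
  let _ : Fintype Γ := Fintype.ofFinite Γ
  intro g hg
  obtain ⟨b, B, hb, hB1, hB2, hB3⟩ := h g hg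
  set P1 := (J0ᶜ).powersetCard (i + 1) with hP1
  set P2 := (J0ᶜ).powersetCard (i + 2) with hP2
  set D : ℕ := ∑ J ∈ P2, Nat.card {y : Γ // dl g J y ≠ 0} with hD
  set N : Γ → ℕ := fun w => ∑ J ∈ P1, Nat.card {y : Γ // (g - dl (b w)) J y ≠ 0} with hN
  have hmem1 : ∀ J ∈ P1, Disjoint J J0 ∧ J.card = i + 1 := by
    intro J hJ
    rw [hP1, Finset.mem_powersetCard] at hJ
    refine ⟨?_, hJ.2⟩
    rw [Finset.disjoint_left]
    intro s hs hs0
    exact (Finset.mem_compl.1 (hJ.1 hs)) hs0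
  have hmem2 : ∀ J : Finset S, Disjoint J J0 → J.card = i + 2 → J ∈ P2 := by
    intro J hJ hc
    rw [hP2, Finset.mem_powersetCard]
    refine ⟨?_, hc⟩
    intro s hs
    rw [Finset.mem_compl]
    exact Finset.disjoint_left.1 hJ hs
  -- the bound for one `w`
  have h1 : ∀ w, N w ≤ ∑ J ∈ P1, ∑ z : Γ, ∑ p ∈ B J z,
      if dl g p.1 (w * p.2) ≠ 0 then 1 else 0 := by
    intro w
    refine Finset.sum_le_sum fun J hJ => ?_
    obtain ⟨hJ1, hJ2⟩ := hmem1 J hJ
    rw [cnt, ← Equiv.sum_comp (Equiv.mulLeft w⁻¹)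
      (fun z => ∑ p ∈ B J z, if dl g p.1 (w * p.2) ≠ 0 then 1 else 0)]
    refine Finset.sum_le_sum fun x _ => ?_
    rw [Equiv.coe_mulLeft]
    by_cases hx : (g - dl (b w)) J x ≠ 0
    · obtain ⟨p, hp1, hp2⟩ := hB3 w J x hJ1 hJ2 hx
      rw [if_pos hx]
      calc 1 = if dl g p.1 (w * p.2) ≠ 0 then 1 else 0 := (if_pos hp2).symm
        _ ≤ _ := Finset.single_le_sum
          (f := fun p : Finset S × Γ => if dl g p.1 (w * p.2) ≠ 0 then 1 else 0)
          (fun _ _ => Nat.zero_le _) hp1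
    · rw [if_neg hx]
      exact Nat.zero_le _
  -- summation over `w`
  have h2 : ∑ w, N w ≤ Fintype.card Γ * (2 ^ Fintype.card S * Mc * D) := by
    calc ∑ w, N w ≤ ∑ w, ∑ J ∈ P1, ∑ z : Γ, ∑ p ∈ B J z,
          (if dl g p.1 (w * p.2) ≠ 0 then 1 else 0) := Finset.sum_le_sum fun w _ => h1 w
      _ = ∑ J ∈ P1, ∑ z : Γ, ∑ p ∈ B J z, ∑ w,
          (if dl g p.1 (w * p.2) ≠ 0 then 1 else 0) := by
          rw [Finset.sum_comm]
          refine Finset.sum_congr rfl fun J _ => ?_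
          rw [Finset.sum_comm]
          refine Finset.sum_congr rfl fun z _ => ?_
          rw [Finset.sum_comm]
      _ ≤ ∑ J ∈ P1, ∑ z : Γ, Mc * D := by
          refine Finset.sum_le_sum fun J _ => Finset.sum_le_sum fun z _ => ?_
          calc ∑ p ∈ B J z, ∑ w, (if dl g p.1 (w * p.2) ≠ 0 then 1 else 0)
              ≤ ∑ p ∈ B J z, D := by
                refine Finset.sum_le_sum fun p hp => ?_
                rw [← Equiv.sum_comp (Equiv.mulRight p.2⁻¹)
                  (fun w => if dl g p.1 (w * p.2) ≠ 0 then 1 else 0)]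
                have h3 : ∀ y : Γ, (Equiv.mulRight p.2⁻¹) y * p.2 = y := by
                  intro y
                  rw [Equiv.coe_mulRight, inv_mul_cancel_right]
                simp only [h3]
                rw [← cnt]
                obtain ⟨h4, h5⟩ := hB2 J z p hp
                exact Finset.single_le_sum
                  (f := fun J' : Finset S => Nat.card {y : Γ // dl g J' y ≠ 0})
                  (fun _ _ => Nat.zero_le _) (hmem2 p.1 h4 h5)
            _ = (B J z).card * D := by rw [Finset.sum_const, smul_eq_mul]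
            _ ≤ Mc * D := Nat.mul_le_mul_right _ (hB1 J z)
      _ = P1.card * (Fintype.card Γ * (Mc * D)) := by
          rw [Finset.sum_const, Finset.sum_const, Finset.card_univ, smul_eq_mul, smul_eq_mul]
      _ ≤ 2 ^ Fintype.card S * (Fintype.card Γ * (Mc * D)) := by
          refine Nat.mul_le_mul_right _ ?_
          calc P1.card ≤ (Finset.univ : Finset (Finset S)).card :=
                Finset.card_le_card (Finset.subset_univ _)
            _ = 2 ^ Fintype.card S := by rw [Finset.card_univ, Fintype.card_finset]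
      _ = Fintype.card Γ * (2 ^ Fintype.card S * Mc * D) := by ring
  obtain ⟨w, hw⟩ := avg_exists N _ h2
  refine ⟨b w, hb w, fun x => ?_⟩
  rw [nm_top H J0 hH0 x (i + 1), nm_top H J0 hH0 x (i + 2)]
  have hc : (0 : ℝ) < Nat.card Γ := by
    rw [Nat.card_eq_fintype_card]
    exact_mod_cast Fintype.card_pos
  have hw' : (∑ J ∈ P1, (Nat.card {y : Γ // (g - dl (b w)) J y ≠ 0} : ℝ)) ≤
      2 ^ Fintype.card S * Mc * (∑ J ∈ P2, (Nat.card {y : Γ // dl g J y ≠ 0} : ℝ)) := by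
    exact_mod_cast hw
  have hD0 : (0 : ℝ) ≤ ∑ J ∈ P2, (Nat.card {y : Γ // dl g J y ≠ 0} : ℝ) :=
    Finset.sum_nonneg fun _ _ => Nat.cast_nonneg _
  have hS0 : (0 : ℝ) < 2 ^ Fintype.card S := by positivity
  rw [← mul_div_assoc]
  refine div_le_div_of_nonneg_right ?_ hc.le
  rw [one_div, inv_mul_le_iff₀ (by positivity)]
  refine hw'.trans ?_
  nlinarith [mul_nonneg hS0.le hD0]

end Vale.P067.PB
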