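import Vale.Agent.Lib.P067.Chain
import Vale.Agent.Lib.P067.B.AvgB

/-!
# P067 B: from cones to coboundary expansion (the algebraic half of the averaging)

`Γ` acts on `V` by `ac`; `v s` (`s ∉ J0`) standard vertices with stabilizers `H s`, of pairwise different types; the faces are
`face x J = J.image (fun s => ac x (v s))`, `J` disjoint from `J0`.
Facts: `(face x J).card = J.card`; `face x J = face x' J'` iff `J = J'` and `x⁻¹ x' ∈ HH H (J0 ∪ J)` (a vertex `ac x (v s)` of one equals a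
vertex `ac x' (v s')` of the other, so `s = s'` by `htyp`; then `x⁻¹ x' ∈ H s`; for `s ∈ J0` it is `⊤`); `(face x J).erase (ac x (v s)) = face x (J.erase s)`
for `s ∈ J`; `(face x J).image (ac w) = face (w x) J`.

Given `g`, let `gh : Finset V → ZMod 2`, `gh (face x J) = g J x` for `J` disjoint from `J0` with `i+1` elements (well defined by `InvL`; `0` elsewhere).
Pairing `⟨u, z⟩ = z.sum (fun σ a => a * u σ)`, linear in `z`; `⟨u, bd z⟩ = ⟨du, z⟩` with `du τ = ∑ x ∈ τ, u (τ.erase x)`.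
`b w J x = ⟨gh ∘ (image (ac w)), c (face (w⁻¹ x) J)⟩`. Invariance: `face (w⁻¹ x h) J = face (w⁻¹ x) J`.
For `J.card = i+1`, `σ = face (w⁻¹ x) J`: `dl (b w) J x = ⟨gh ∘ w, ∑_{y ∈ σ} c (σ.erase y)⟩ = ⟨gh ∘ w, bd (c σ) + single σ 1⟩ = ⟨d(gh ∘ w), c σ⟩ + g J x`.
So `(g - dl (b w)) J x ≠ 0` gives a face `τ` of `c σ` with `d(gh ∘ w) τ ≠ 0`; `τ = face y J'`, `J'.card = i+2`, and `d(gh ∘ w) τ = dl g J' (w y)`.
`B J z` = the set of the chosen pairs `(J', y)` for the faces of `c (face z J)` (empty if `J` is not disjoint from `J0` or `J.card ≠ i+1`).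
Everything is then `linkExp_of_bw`.
-/

namespace Vale.P067.PB

open scoped Classical

private theorem pr_bd {V : Type*} (u : Finset V → ZMod 2) (z : Ch V) :
    Finsupp.linearCombination (ZMod 2) u (bd z) =
      Finsupp.linearCombination (ZMod 2) (fun τ => ∑ x ∈ τ, u (τ.erase x)) z := by
  have key := ch_ext ((Finsupp.linearCombination (ZMod 2) u).comp bd)
    (Finsupp.linearCombination (ZMod 2) (fun τ => ∑ x ∈ τ, u (τ.erase x))) z ?_
  · exact key
  · intro σ _
    rw [LinearMap.comp_apply, bd_single, map_sum, Finsupp.linearCombination_single, one_smul]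
    refine Finset.sum_congr rfl fun v _ => ?_
    rw [Finsupp.linearCombination_single, one_smul]

theorem linkExp_of_cone {S Γ V : Type*} [Fintype S] [Group Γ] [Finite Γ] (ac : Γ → V → V)
    (hone : ∀ v, ac 1 v = v) (hmul : ∀ g h v, ac (g * h) v = ac g (ac h v))
    (H : S → Subgroup Γ) (J0 : Finset S) (v : S → V)
    (hH0 : ∀ s ∈ J0, H s = ⊤)
    (hst : ∀ s, s ∉ J0 → ∀ g : Γ, ac g (v s) = v s ↔ g ∈ H s)
    (htyp : ∀ s s', s ∉ J0 → s' ∉ J0 → ∀ g : Γ, ac g (v s) = v s' → s = s')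
    (K : Set (Finset V))
    (hK : ∀ σ, σ ∈ K ↔ ∃ (g : Γ) (J : Finset S), Disjoint J J0 ∧ σ = J.image fun s => ac g (v s))
    (i Mc : ℕ) (c : Finset V → Ch V)
    (hc : ∀ σ ∈ K, σ.card ≤ i + 1 → On K (σ.card + 1) (c σ) ∧ (c σ).support.card ≤ Mc ∧
      bd (c σ) = Finsupp.single σ 1 + ∑ w ∈ σ, c (σ.erase w)) :
    LinkExp H J0 i (1 / (2 ^ Fintype.card S * (Mc + 1))) := by
  obtain ⟨face, hface⟩ : ∃ face : Γ → Finset S → Finset V,
      ∀ x J, face x J = J.image fun s => ac x (v s) := ⟨_, fun _ _ => rfl⟩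
  -- the vertices of a face are pairwise different
  have hinv : ∀ x w, ac x⁻¹ (ac x w) = w := fun x w => by
    rw [← hmul, inv_mul_cancel, hone]
  have hinj : ∀ (x : Γ) (J : Finset S), Disjoint J J0 →
      Set.InjOn (fun s => ac x (v s)) (J : Set S) := by
    intro x J hJ s hs s' hs' h
    have h1 : ac (x⁻¹ * x) (v s) = v s' := by
      rw [hmul]
      have h2 : ac x (v s) = ac x (v s') := h
      rw [h2, hinv]
    exact htyp s s' (Finset.disjoint_left.1 hJ hs) (Finset.disjoint_left.1 hJ hs') _ h1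
  have hsub : ∀ (x x' : Γ) (J J' : Finset S), Disjoint J J0 → Disjoint J' J0 →
      face x J ⊆ face x' J' → J ⊆ J' ∧ ∀ s ∈ J, x⁻¹ * x' ∈ H s := by
    intro x x' J J' hJ hJ' h
    have h1 : ∀ s ∈ J, s ∈ J' ∧ x⁻¹ * x' ∈ H s := by
      intro s hs
      have h2 : ac x (v s) ∈ face x' J' := by
        apply h
        rw [hface]
        exact Finset.mem_image_of_mem (fun s => ac x (v s)) hs
      rw [hface] at h2
      obtain ⟨s', hs', h3⟩ := Finset.mem_image.1 h2
      have h4 : ac (x⁻¹ * x') (v s') = v s := by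
        rw [hmul]
        have h5 : ac x' (v s') = ac x (v s) := h3
        rw [h5, hinv]
      have h6 : s' = s := htyp s' s (Finset.disjoint_left.1 hJ' hs')
        (Finset.disjoint_left.1 hJ hs) _ h4
      subst h6
      exact ⟨hs', (hst s' (Finset.disjoint_left.1 hJ hs) _).1 h4⟩
    exact ⟨fun s hs => (h1 s hs).1, fun s hs => (h1 s hs).2⟩
  have hfinj : ∀ (x x' : Γ) (J J' : Finset S), Disjoint J J0 → Disjoint J' J0 →
      face x J = face x' J' → J = J' ∧ x⁻¹ * x' ∈ HH H (J0 ∪ J) := by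
    intro x x' J J' hJ hJ' h
    obtain ⟨h1, h2⟩ := hsub x x' J J' hJ hJ' h.subset
    obtain ⟨h3, _⟩ := hsub x' x J' J hJ' hJ h.symm.subset
    refine ⟨h1.antisymm h3, ?_⟩
    unfold HH
    rw [Subgroup.mem_iInf]
    intro s
    rw [Subgroup.mem_iInf]
    intro hs
    rcases Finset.mem_union.1 hs with h4 | h4
    · rw [hH0 s h4]
      exact Subgroup.mem_top _
    · exact h2 s h4
  have hmemHH : ∀ (J : Finset S) (h : Γ), h ∈ HH H (J0 ∪ J) → ∀ s ∈ J, h ∈ H s := by
    intro J h hh s hs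
    unfold HH at hh
    rw [Subgroup.mem_iInf] at hh
    have h1 := hh s
    rw [Subgroup.mem_iInf] at h1
    exact h1 (Finset.mem_union_right _ hs)
  have hfinv : ∀ (x h : Γ) (J : Finset S), Disjoint J J0 → h ∈ HH H (J0 ∪ J) →
      face (x * h) J = face x J := by
    intro x h J hJ hh
    rw [hface, hface]
    refine Finset.image_congr fun s hs => ?_
    show ac (x * h) (v s) = ac x (v s)
    rw [hmul, (hst s (Finset.disjoint_left.1 hJ hs) h).2 (hmemHH J h hh s hs)]
  have hferase : ∀ (x : Γ) (J : Finset S), Disjoint J J0 → ∀ s ∈ J,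
      (face x J).erase (ac x (v s)) = face x (J.erase s) := by
    intro x J hJ s hs
    rw [hface, hface]
    ext w
    rw [Finset.mem_erase, Finset.mem_image, Finset.mem_image]
    constructor
    · rintro ⟨h1, s', hs', rfl⟩
      refine ⟨s', Finset.mem_erase.2 ⟨?_, hs'⟩, rfl⟩
      rintro rfl
      exact h1 rfl
    · rintro ⟨s', hs', rfl⟩
      rw [Finset.mem_erase] at hs'
      exact ⟨fun e => hs'.1 (hinj x J hJ hs'.2 hs e), s', hs'.2, rfl⟩
  have hfimage : ∀ (w x : Γ) (J : Finset S), (face x J).image (ac w) = face (w * x) J := by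
    intro w x J
    rw [hface, hface, Finset.image_image]
    refine Finset.image_congr fun s _ => ?_
    show ac w (ac x (v s)) = ac (w * x) (v s)
    rw [hmul]
  have hfcard : ∀ (x : Γ) (J : Finset S), Disjoint J J0 → (face x J).card = J.card := by
    intro x J hJ
    rw [hface, Finset.card_image_of_injOn (hinj x J hJ)]
  have hfK : ∀ (x : Γ) (J : Finset S), Disjoint J J0 → face x J ∈ K := by
    intro x J hJ
    rw [hK]
    exact ⟨x, J, hJ, hface x J⟩
  have hde : ∀ (J : Finset S) (s : S), Disjoint J J0 → Disjoint (J.erase s) J0 :=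
    fun J s hJ => Finset.disjoint_of_subset_left (Finset.erase_subset _ _) hJ
  -- sum over the vertices of a face
  have hfsum : ∀ (x : Γ) (J : Finset S), Disjoint J J0 → ∀ F : Finset V → ZMod 2,
      ∑ y ∈ face x J, F ((face x J).erase y) = ∑ s ∈ J, F (face x (J.erase s)) := by
    intro x J hJ F
    conv_lhs => rw [hface]
    rw [Finset.sum_image (hinj x J hJ)]
    refine Finset.sum_congr rfl fun s hs => ?_
    rw [← hface, hferase x J hJ s hs]
  apply linkExp_of_bw H J0 hH0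
  intro g hg
  -- the function on faces defined by `g`
  obtain ⟨gh, hgh⟩ : ∃ gh : Finset V → ZMod 2, ∀ (x : Γ) (J : Finset S), Disjoint J J0 →
      J.card = i + 1 → gh (face x J) = g J x := by
    have h1 : ∀ σ : Finset V, ∃ a : ZMod 2, ∀ (x : Γ) (J : Finset S), Disjoint J J0 →
        J.card = i + 1 → face x J = σ → a = g J x := by
      intro σ
      by_cases h : ∃ (x : Γ) (J : Finset S), Disjoint J J0 ∧ J.card = i + 1 ∧ face x J = σ
      · obtain ⟨x, J, hJ, hJc, hx⟩ := h
        refine ⟨g J x, fun x' J' hJ' _ hx' => ?_⟩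
        obtain ⟨h2, h3⟩ := hfinj x x' J J' hJ hJ' (hx.trans hx'.symm)
        subst h2
        rw [← hg J hJ hJc x _ h3, mul_inv_cancel_left]
      · exact ⟨0, fun x J hJ hJc hx => absurd ⟨x, J, hJ, hJc, hx⟩ h⟩
    choose gh hgh using h1
    exact ⟨gh, fun x J hJ hJc => hgh _ x J hJ hJc rfl⟩
  -- a choice of a group element and a type for a face
  obtain ⟨yy, hyy⟩ : ∃ yy : Finset V → Finset S × Γ, ∀ τ ∈ K,
      Disjoint (yy τ).1 J0 ∧ τ = face (yy τ).2 (yy τ).1 := by
    have h1 : ∀ τ : Finset V, ∃ p : Finset S × Γ, τ ∈ K → Disjoint p.1 J0 ∧ τ = face p.2 p.1 := by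
      intro τ
      by_cases h : τ ∈ K
      · obtain ⟨x, J, hJ, hx⟩ := (hK τ).1 h
        exact ⟨(J, x), fun _ => ⟨hJ, by rw [hface]; exact hx⟩⟩
      · exact ⟨(∅, 1), fun h' => absurd h' h⟩
    choose yy hyy using h1
    exact ⟨yy, hyy⟩
  -- the cochains
  obtain ⟨b, hb⟩ : ∃ b : Γ → Finset S → Γ → ZMod 2, ∀ w J x, b w J x =
      Finsupp.linearCombination (ZMod 2) (fun σ => gh (σ.image (ac w))) (c (face (w⁻¹ * x) J)) :=
    ⟨_, fun _ _ _ => rfl⟩
  have hcard : ∀ (z : Γ) (J : Finset S), Disjoint J J0 → J.card = i + 1 →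
      ∀ τ ∈ (c (face z J)).support, τ ∈ K ∧ τ.card = i + 2 := by
    intro z J hJ hJc τ hτ
    have h1 := hfcard z J hJ
    have h2 := (hc (face z J) (hfK z J hJ) (by omega)).1 τ hτ
    exact ⟨h2.1, by omega⟩
  obtain ⟨B, hB⟩ : ∃ B : Finset S → Γ → Finset (Finset S × Γ), ∀ J z, B J z =
      if Disjoint J J0 ∧ J.card = i + 1 then (c (face z J)).support.image yy else ∅ :=
    ⟨_, fun _ _ => rfl⟩
  refine ⟨b, B, ?_, ?_, ?_, ?_⟩
  · intro w J hJ _ x h hh
    rw [hb, hb, ← mul_assoc, hfinv _ h J hJ]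
    exact hh
  · intro J z
    rw [hB]
    split_ifs with h
    · refine Finset.card_image_le.trans ?_
      have h1 := hfcard z J h.1
      exact (hc (face z J) (hfK z J h.1) (by omega)).2.1
    · exact Nat.zero_le _
  · intro J z p hp
    rw [hB] at hp
    by_cases h : Disjoint J J0 ∧ J.card = i + 1
    · rw [if_pos h] at hp
      obtain ⟨τ, hτ, rfl⟩ := Finset.mem_image.1 hp
      obtain ⟨h1, h2⟩ := hcard z J h.1 h.2 τ hτ
      obtain ⟨h3, h4⟩ := hyy τ h1
      refine ⟨h3, ?_⟩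
      rw [← hfcard (yy τ).2 _ h3, ← h4, h2]
    · rw [if_neg h] at hp
      simp at hp
  · intro w J x hJ hJc hne
    obtain ⟨σ, hσ⟩ : ∃ σ, σ = face (w⁻¹ * x) J := ⟨_, rfl⟩
    have hσc : σ.card = i + 1 := by rw [hσ, hfcard _ J hJ, hJc]
    have hσK : σ ∈ K := hσ ▸ hfK _ J hJ
    obtain ⟨_, _, hbd⟩ := hc σ hσK (by omega)
    have h1 : dl (b w) J x =
        Finsupp.linearCombination (ZMod 2) (fun τ => ∑ y ∈ τ, gh ((τ.erase y).image (ac w))) (c σ)
          + g J x := by
      have h2 : dl (b w) J x = ∑ y ∈ σ,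
          Finsupp.linearCombination (ZMod 2) (fun σ => gh (σ.image (ac w))) (c (σ.erase y)) := by
        unfold dl
        rw [hσ, hfsum _ J hJ (fun τ =>
          Finsupp.linearCombination (ZMod 2) (fun σ => gh (σ.image (ac w))) (c τ))]
        exact Finset.sum_congr rfl fun s _ => hb _ _ _
      have h3 : ∑ y ∈ σ, c (σ.erase y) = bd (c σ) + Finsupp.single σ 1 := by
        rw [hbd, add_comm (Finsupp.single σ 1) (∑ w ∈ σ, c (σ.erase w)), add_assoc,
          ch_add_self, add_zero]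
      rw [h2, ← map_sum, h3, map_add, pr_bd, Finsupp.linearCombination_single, one_smul, hσ,
        hfimage, mul_inv_cancel_left, hgh x J hJ hJc]
    have h2 : Finsupp.linearCombination (ZMod 2)
        (fun τ => ∑ y ∈ τ, gh ((τ.erase y).image (ac w))) (c σ) ≠ 0 := by
      intro h0
      apply hne
      show g J x - dl (b w) J x = 0
      rw [h1, h0, zero_add, sub_self]
    have h3 : ∃ τ ∈ (c σ).support, ∑ y ∈ τ, gh ((τ.erase y).image (ac w)) ≠ 0 := by
      by_contra hcon
      push Not at hcon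
      apply h2
      rw [Finsupp.linearCombination_apply, Finsupp.sum]
      refine Finset.sum_eq_zero fun τ hτ => ?_
      rw [hcon τ hτ, smul_zero]
    obtain ⟨τ, hτ, hτ0⟩ := h3
    rw [hσ] at hτ
    obtain ⟨h4, h5⟩ := hcard _ J hJ hJc τ hτ
    obtain ⟨h6, h7⟩ := hyy τ h4
    refine ⟨yy τ, ?_, ?_⟩
    · rw [hB, if_pos ⟨hJ, hJc⟩]
      exact Finset.mem_image_of_mem _ hτ
    · have h8 : ∑ y ∈ τ, gh ((τ.erase y).image (ac w)) = dl g (yy τ).1 (w * (yy τ).2) := by
        have h9 : ∑ y ∈ τ, gh ((τ.erase y).image (ac w)) =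
            ∑ s ∈ (yy τ).1, gh ((face (yy τ).2 ((yy τ).1.erase s)).image (ac w)) := by
          conv_lhs => rw [h7]
          exact hfsum _ _ h6 (fun τ => gh (τ.image (ac w)))
        rw [h9]
        unfold dl
        refine Finset.sum_congr rfl fun s hs => ?_
        rw [hfimage, hgh _ _ (hde _ _ h6)]
        rw [Finset.card_erase_of_mem hs, ← hfcard (yy τ).2 _ h6, ← h7, h5]
        rfl
      rw [← h8]
      exact hτ0

end Vale.P067.PB
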