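import Mathlib

/-!
# P067 B: a subspace over a finite field with `q` elements is not covered by fewer than `q` proper subspaces

Induction on `Ps`. Let `P ∉ Ps`, `v ∈ D` outside all members of `Ps` (induction). If `v ∉ P` done. Otherwise choose
`w ∈ D`, `w ∉ P`. For `c ≠ 0`: `v + c w ∉ P`. For every `P' ∈ Ps` at most one `c : k` has `v + c w ∈ P'` (if `c ≠ c'` both
have it then `w ∈ P'` and so `v ∈ P'`, contradiction), so there is `c ≠ 0` avoiding at most `Ps.card < q - 1` values.
-/

namespace Vale.P067.PB

open scoped Classical

theorem exists_avoid {k F : Type*} [Field k] [Finite k] [AddCommGroup F] [Module k F]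
    (D : Submodule k F) (Ps : Finset (Submodule k F)) (h : ∀ P ∈ Ps, ¬ D ≤ P)
    (hc : Ps.card < Nat.card k) : ∃ v ∈ D, ∀ P ∈ Ps, v ∉ P := by
  induction Ps using Finset.induction_on with
  | empty => exact ⟨0, D.zero_mem, fun P hP => absurd hP (Finset.notMem_empty P)⟩
  | insert P Ps hP ih =>
    rw [Finset.card_insert_of_notMem hP] at hc
    obtain ⟨v, hvD, hv⟩ := ih (fun P' hP' => h P' (Finset.mem_insert_of_mem hP')) (by omega)
    by_cases hvP : v ∈ P
    · obtain ⟨w, hwD, hwP⟩ := SetLike.not_le_iff_exists.1 (h P (Finset.mem_insert_self P Ps))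
      have huniq : ∀ P' ∈ Ps, ∀ c c' : k, v + c • w ∈ P' → v + c' • w ∈ P' → c = c' := by
        intro P' hP' c c' h1 h2
        by_contra hne
        have h3 : (c - c') • w ∈ P' := by
          have h4 := P'.sub_mem h1 h2
          have h5 : v + c • w - (v + c' • w) = (c - c') • w := by
            rw [sub_smul]
            abel
          rwa [h5] at h4
        have h6 : w ∈ P' := (P'.smul_mem_iff (sub_ne_zero.2 hne)).1 h3
        have h7 : v ∈ P' := by
          have h8 := P'.sub_mem h1 (P'.smul_mem c h6)
          rwa [add_sub_cancel_right] at h8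
        exact hv P' hP' h7
      let f : Submodule k F → k := fun P' =>
        if hex : ∃ c : k, v + c • w ∈ P' then hex.choose else 0
      have hf : ∀ P' ∈ Ps, ∀ c : k, v + c • w ∈ P' → f P' = c := by
        intro P' hP' c hc'
        have hex : ∃ c : k, v + c • w ∈ P' := ⟨c, hc'⟩
        have h1 : f P' = hex.choose := dif_pos hex
        rw [h1]
        exact huniq P' hP' _ _ hex.choose_spec hc'
      have : Fintype k := Fintype.ofFinite k
      have hcard : (insert 0 (Ps.image f)).card < (Finset.univ : Finset k).card := by
        rw [Finset.card_univ, ← Nat.card_eq_fintype_card]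
        calc (insert 0 (Ps.image f)).card ≤ (Ps.image f).card + 1 := Finset.card_insert_le _ _
          _ ≤ Ps.card + 1 := by
            have := Finset.card_image_le (s := Ps) (f := f)
            omega
          _ < Nat.card k := hc
      obtain ⟨c, -, hcn⟩ := Finset.exists_mem_notMem_of_card_lt_card hcard
      have hc0 : c ≠ 0 := fun h0 => hcn (by rw [h0]; exact Finset.mem_insert_self _ _)
      refine ⟨v + c • w, D.add_mem hvD (D.smul_mem c hwD), ?_⟩
      intro P' hP'
      rcases Finset.mem_insert.1 hP' with rfl | hP'
      · intro hmem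
        have h1 : c • w ∈ P' := by
          have h2 := P'.sub_mem hmem hvP
          rwa [add_sub_cancel_left] at h2
        exact hwP ((P'.smul_mem_iff hc0).1 h1)
      · intro hmem
        apply hcn
        rw [← hf P' hP' c hmem]
        exact Finset.mem_insert_of_mem (Finset.mem_image_of_mem f hP')
    · refine ⟨v, hvD, fun P' hP' => ?_⟩
      rcases Finset.mem_insert.1 hP' with rfl | hP'
      · exact hvP
      · exact hv P' hP'

end Vale.P067.PB
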