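import Vale.Agent.Lib.P067.B.StepB

/-!
# P067 B: bounded filling and cones, uniformly in the field

`bfill_zero`: a cycle on faces with `0` elements is `0` or `single ∅ 1`; take `single {(i, L i)} 1`, `i ∈ T` (`Fl_std`).

`bfill_all`: induction on `j` with `bfill_succ` (`t = T.max'`, `(T.erase t).card = T.card - 1`); `F` and `q0` by recursion.

`exists_cone`: for `j = 0, 1, …, N` successively: suppose `c` is defined on the faces with less than `j` elements with
`bd (c σ) = single σ 1 + ∑ v ∈ σ, c (σ.erase v)` and supports `≤ Mc_{j-1}`. For a face `σ` with `j` elements, `j + 1 ≤ T.card`, the chain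
`z = single σ 1 + ∑ v ∈ σ, c (σ.erase v)` is on faces with `j` elements, `bd z = 0` (use the identity for `σ.erase v`; the terms
`c ((σ.erase v).erase w)` cancel in pairs) and has support `≤ 1 + j * Mc_{j-1}`; fill it by `bfill_all` with `s = 1 + N * Mc_{j-1}`.
`Mc` = the maximum over `j ≤ N`, `q0` = the maximum. (Faces with more than `T.card ≤ N` elements do not exist.)
In Lean: prove by induction on `J`: there are `Mc, q0` such that for all `k, a, b, T` there is `c` with the three properties for all
`σ ∈ Fl` with `σ.card < J` and `σ.card + 1 ≤ T.card`; in the step redefine `c` on the faces with exactly `J` elements.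

`fills_Fl`: from `exists_cone`: `y = ∑ σ ∈ z.support, c σ`; `bd y = z + (linear extension of c)(bd z) = z`.
-/

namespace Vale.P067.PB

open scoped Classical

private theorem bd_vertex {V : Type*} (v : V) :
    bd (Finsupp.single {v} (1 : ZMod 2)) = Finsupp.single ∅ 1 := by
  rw [bd_single, Finset.sum_singleton, Finset.erase_singleton]

theorem bfill_zero {k : Type*} [Field k] {a b : ℤ} {T : Finset ℤ} (hT : T.Nonempty) (s : ℕ) :
    BFill (k := k) a b T 0 s 1 := by
  intro z hz _ _
  have hsup : ∀ σ ∈ z.support, σ = ∅ := fun σ hσ => Finset.card_eq_zero.1 (hz σ hσ).2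
  by_cases h0 : z = 0
  · refine ⟨0, On.zero _ _, ?_, by simp⟩
    rw [h0, map_zero]
  · obtain ⟨σ, hσ⟩ := Finsupp.support_nonempty_iff.2 h0
    have hσ0 := hsup σ hσ
    subst hσ0
    have hz1 : z = Finsupp.single ∅ (1 : ZMod 2) := by
      have hs : z.support = {∅} := by
        ext τ
        rw [Finset.mem_singleton]
        exact ⟨fun h => hsup τ h, fun h => h ▸ hσ⟩
      conv_lhs => rw [ch_eq_sum z]
      rw [hs, Finset.sum_singleton]
    obtain ⟨i, hi⟩ := hT
    refine ⟨Finsupp.single {(i, L k i)} 1, ?_, ?_, ?_⟩
    · exact On.single' (Fl_std hi) (Finset.card_singleton _)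
    · rw [bd_vertex, hz1]
    · exact (Finset.card_le_card Finsupp.support_single_subset).trans
        (Finset.card_singleton _).le

theorem bfill_all (N j s : ℕ) : ∃ F q0 : ℕ, ∀ (k : Type) [Field k] [Finite k], q0 ≤ Nat.card k →
    ∀ (a b : ℤ) (T : Finset ℤ), b ≤ a + N → (∀ i ∈ T, a < i ∧ i < b) → j + 1 ≤ T.card →
      BFill (k := k) a b T j s F := by
  induction j with
  | zero =>
    refine ⟨1, 0, ?_⟩
    intro k _ _ _ a b T _ _ hc
    exact bfill_zero (Finset.card_pos.1 (by omega)) s
  | succ j ih =>
    obtain ⟨F', q0, ih⟩ := ih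
    refine ⟨(s + s * F') * (N + 1) + s * F', max q0 (N * (s + s * F') + 2), ?_⟩
    intro k _ _ hk a b T hb hT hc
    have hne : T.Nonempty := Finset.card_pos.1 (by omega)
    have ht : T.max' hne ∈ T := T.max'_mem hne
    have hcard : (T.erase (T.max' hne)).card = T.card - 1 := Finset.card_erase_of_mem ht
    have hk1 : q0 ≤ Nat.card k := (le_max_left _ _).trans hk
    have hk2 : N * (s + s * F') + 2 ≤ Nat.card k := (le_max_right _ _).trans hk
    exact bfill_succ hT hb ht (fun i hi => T.le_max' i hi)
      (ih k hk1 a b (T.erase (T.max' hne)) hb (fun i hi => hT i (Finset.mem_of_mem_erase hi))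
        (by omega)) (by omega)

end Vale.P067.PB
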