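import Vale.Agent.Lib.P067.B.ConeA

/-!
# P067 B: bounded filling and cones, uniformly in the field

`bfill_zero`: a cycle on faces with `0` elements is `0` or `single ∅ 1`; take `single {(i, L i)} 1`, `i ∈ T` (`Fl_std`).

`bfill_all`: induction on `j` with `bfill_succ` (`t = T.max'`, `(T.erase t).card = T.card - 1`); `F` and `q0` by recursion.

`exists_cone`: for `j = 0, 1, …, N` successively: suppose `c` is defined on the faces with less than `j` elements with
`bd (c σ) = single σ 1 + ∑ v ∈ σ, c (σ.erase v)` and supports `≤ Mc_{j-1}`. For a face `σ` with `j` elements, `j + 1 ≤ T.card`, the chain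
`z = single σ 1 + ∑ v ∈ σ, c (σ.erase v)` is on faces with `j` elements, `bd z = 0` (use the identity for `σ.erase v`; the terms
`c ((σ.erase v).erase w)` cancel in pairs) and has support `≤ 1 + j * Mc_{j-1}`; fill it by `bfill_all` with `s = 1 + N * Mc_{j-1}`.
`Mc` = the maximum over `j ≤ N`, `q0` = the maximum. (Faces with more than `T.card ≤ N` elements do not exist.)
In Lean: prove by induction on `J`: there are `Mc, q0` such that for all `k, a, b, T` there is `c` with the three properties for all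
`σ ∈ Fl` with `σ.card < J` and `σ.card + 1 ≤ T.card`; in the step redefine `c` on the faces with exactly `J` elements.

`fills_Fl`: from `exists_cone`: `y = ∑ σ ∈ z.support, c σ`; `bd y = z + (linear extension of c)(bd z) = z`.
-/

namespace Vale.P067.PB

open scoped Classical

theorem coneB_T_card {N : ℕ} {a b : ℤ} {T : Finset ℤ} (hb : b ≤ a + N)
    (hT : ∀ i ∈ T, a < i ∧ i < b) : T.card ≤ N := by
  have h1 : T ⊆ Finset.Ioo a b := fun i hi => Finset.mem_Ioo.2 (hT i hi)
  have h2 := Finset.card_le_card h1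
  rw [Int.card_Ioo] at h2
  omega

theorem coneB_bd_single {V : Type*} [DecidableEq V] (σ : Finset V) :
    bd (Finsupp.single σ (1 : ZMod 2)) = ∑ v ∈ σ, Finsupp.single (σ.erase v) 1 := by
  rw [bd_single]
  refine Finset.sum_congr rfl fun v _ => ?_
  congr 1
  ext w
  simp [Finset.mem_erase]

theorem coneB_bd_sum {V : Type*} [DecidableEq V] (z : Ch V) :
    bd z = ∑ σ ∈ z.support, ∑ v ∈ σ, Finsupp.single (σ.erase v) (1 : ZMod 2) := by
  conv_lhs => rw [ch_eq_sum z]
  rw [map_sum]
  exact Finset.sum_congr rfl fun σ _ => coneB_bd_single σ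

theorem coneB_double {V : Type*} [DecidableEq V] (c : Finset V → Ch V) (σ : Finset V) :
    ∑ v ∈ σ, ∑ w ∈ σ.erase v, c ((σ.erase v).erase w) = 0 := by
  rw [Finset.sum_sigma']
  refine Finset.sum_involution (fun x _ => ⟨x.2, x.1⟩) ?_ ?_ ?_ ?_
  · rintro ⟨v, w⟩ _
    simp only
    rw [Finset.erase_right_comm]
    exact ch_add_self _
  · rintro ⟨v, w⟩ hx _ he
    rw [Finset.mem_sigma, Finset.mem_erase] at hx
    simp only [Sigma.mk.injEq] at he
    exact hx.2.1 he.1
  · rintro ⟨v, w⟩ hx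
    rw [Finset.mem_sigma, Finset.mem_erase] at hx
    rw [Finset.mem_sigma, Finset.mem_erase]
    exact ⟨hx.2.2, hx.2.1.symm, hx.1⟩
  · rintro ⟨v, w⟩ _
    rfl

theorem coneB_support_sum {V ι : Type*} (s : Finset ι) (f : ι → Ch V) (m : ℕ)
    (h : ∀ i ∈ s, (f i).support.card ≤ m) : (∑ i ∈ s, f i).support.card ≤ s.card * m := by
  induction s using Finset.induction_on with
  | empty => simp
  | insert a s ha ih =>
    rw [Finset.sum_insert ha, Finset.card_insert_of_notMem ha]
    have h1 := Finset.card_le_card (Finsupp.support_add (g₁ := f a) (g₂ := ∑ i ∈ s, f i))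
    have h2 := Finset.card_union_le (f a).support (∑ i ∈ s, f i).support
    have h3 := h a (Finset.mem_insert_self a s)
    have h4 := ih fun i hi => h i (Finset.mem_insert_of_mem hi)
    calc (f a + ∑ i ∈ s, f i).support.card ≤ m + s.card * m := by omega
      _ = (s.card + 1) * m := by ring

theorem coneB_aux (N J : ℕ) : ∃ Mc q0 : ℕ, ∀ (k : Type) [Field k] [Finite k], q0 ≤ Nat.card k →
    ∀ (a b : ℤ) (T : Finset ℤ), b ≤ a + N → (∀ i ∈ T, a < i ∧ i < b) →
      ∃ c : Finset (ℤ × Submodule k (E k)) → Ch (ℤ × Submodule k (E k)),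
        ∀ σ ∈ Fl k a b T, σ.card < J → σ.card + 1 ≤ T.card →
          On (Fl k a b T) (σ.card + 1) (c σ) ∧ (c σ).support.card ≤ Mc ∧
          bd (c σ) = Finsupp.single σ 1 + ∑ v ∈ σ, c (σ.erase v) := by
  induction J with
  | zero =>
    refine ⟨0, 0, fun k _ _ _ a b T _ _ => ⟨fun _ => 0, fun σ _ h => ?_⟩⟩
    exact absurd h (Nat.not_lt_zero _)
  | succ J ih =>
    obtain ⟨Mc, q0, ih⟩ := ih
    obtain ⟨F, q1, hF⟩ := bfill_all N J (1 + J * Mc)
    refine ⟨max Mc F, max q0 q1, fun k _ _ hk a b T hb hT => ?_⟩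
    obtain ⟨c, hc⟩ := ih k ((le_max_left _ _).trans hk) a b T hb hT
    have hfill : ∀ σ ∈ Fl k a b T, σ.card = J → σ.card + 1 ≤ T.card →
        ∃ y, On (Fl k a b T) (J + 1) y ∧
          bd y = Finsupp.single σ 1 + ∑ v ∈ σ, c (σ.erase v) ∧ y.support.card ≤ F := by
      intro σ hσ hJ hT'
      have hcv : ∀ v ∈ σ, On (Fl k a b T) J (c (σ.erase v)) ∧
          (c (σ.erase v)).support.card ≤ Mc ∧
          bd (c (σ.erase v)) = Finsupp.single (σ.erase v) 1 +
            ∑ w ∈ σ.erase v, c ((σ.erase v).erase w) := by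
        intro v hv
        have h1 : (σ.erase v).card + 1 = J := by
          rw [Finset.card_erase_of_mem hv]
          have := Finset.card_pos.2 ⟨v, hv⟩
          omega
        have h2 := hc (σ.erase v) (Fl_erase σ hσ v hv) (by omega) (by omega)
        rw [h1] at h2
        exact h2
      refine hF k ((le_max_right _ _).trans hk) a b T hb hT (by omega) _ ?_ ?_ ?_
      · refine (On.single' hσ hJ).add (On.sum _ _ fun v hv => (hcv v hv).1)
      · rw [map_add, coneB_bd_single, map_sum,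
          Finset.sum_congr rfl fun v hv => (hcv v hv).2.2, Finset.sum_add_distrib,
          coneB_double, add_zero]
        exact ch_add_self _
      · have h1 := Finset.card_le_card (Finsupp.support_add
          (g₁ := (Finsupp.single σ 1 : Ch (ℤ × Submodule k (E k))))
          (g₂ := ∑ v ∈ σ, c (σ.erase v)))
        have h2 := Finset.card_union_le
          (Finsupp.single σ 1 : Ch (ℤ × Submodule k (E k))).support
          (∑ v ∈ σ, c (σ.erase v)).support
        have h3 : (Finsupp.single σ 1 : Ch (ℤ × Submodule k (E k))).support.card ≤ 1 := by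
          have := Finset.card_le_card
            (Finsupp.support_single_subset (a := σ) (b := (1 : ZMod 2)))
          exact this
        have h4 := coneB_support_sum σ (fun v => c (σ.erase v)) Mc fun v hv => (hcv v hv).2.1
        rw [hJ] at h4
        omega
    choose! y hy using hfill
    refine ⟨fun σ => if σ.card = J then y σ else c σ, fun σ hσ hJ hT' => ?_⟩
    have herase : ∑ v ∈ σ, (if (σ.erase v).card = J then y (σ.erase v) else c (σ.erase v)) =
        ∑ v ∈ σ, c (σ.erase v) := by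
      refine Finset.sum_congr rfl fun v hv => ?_
      have h1 : (σ.erase v).card ≠ J := by
        rw [Finset.card_erase_of_mem hv]
        have := Finset.card_pos.2 ⟨v, hv⟩
        omega
      rw [if_neg h1]
    simp only [herase]
    by_cases hc1 : σ.card = J
    · simp only [if_pos hc1]
      obtain ⟨h1, h2, h3⟩ := hy σ hσ hc1 hT'
      refine ⟨?_, h3.trans (le_max_right _ _), h2⟩
      rw [hc1]
      exact h1
    · simp only [if_neg hc1]
      obtain ⟨h1, h2, h3⟩ := hc σ hσ (by omega) hT'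
      exact ⟨h1, h2.trans (le_max_left _ _), h3⟩

theorem exists_cone (N : ℕ) : ∃ Mc q0 : ℕ, ∀ (k : Type) [Field k] [Finite k], q0 ≤ Nat.card k →
    ∀ (a b : ℤ) (T : Finset ℤ), b ≤ a + N → (∀ i ∈ T, a < i ∧ i < b) →
      ∃ c : Finset (ℤ × Submodule k (E k)) → Ch (ℤ × Submodule k (E k)),
        ∀ σ ∈ Fl k a b T, σ.card + 1 ≤ T.card →
          On (Fl k a b T) (σ.card + 1) (c σ) ∧ (c σ).support.card ≤ Mc ∧
          bd (c σ) = Finsupp.single σ 1 + ∑ v ∈ σ, c (σ.erase v) := by
  obtain ⟨Mc, q0, h⟩ := coneB_aux N (N + 1)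
  refine ⟨Mc, q0, fun k _ _ hk a b T hb hT => ?_⟩
  obtain ⟨c, hc⟩ := h k hk a b T hb hT
  refine ⟨c, fun σ hσ h1 => hc σ hσ ?_ h1⟩
  have := coneB_T_card hb hT
  omega

theorem fills_Fl (N : ℕ) : ∃ q0 : ℕ, ∀ (k : Type) [Field k] [Finite k], q0 ≤ Nat.card k →
    ∀ (a b : ℤ) (T : Finset ℤ), b ≤ a + N → (∀ i ∈ T, a < i ∧ i < b) →
      ∀ j : ℕ, j + 1 ≤ T.card → Fills (Fl k a b T) j := by
  obtain ⟨Mc, q0, h⟩ := exists_cone N
  refine ⟨q0, fun k _ _ hk a b T hb hT j hj z hz hbz => ?_⟩
  obtain ⟨c, hc⟩ := h k hk a b T hb hT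
  have hc' : ∀ σ ∈ z.support, On (Fl k a b T) (j + 1) (c σ) ∧
      bd (c σ) = Finsupp.single σ 1 + ∑ v ∈ σ, c (σ.erase v) := by
    intro σ hσ
    obtain ⟨h1, h2⟩ := hz σ hσ
    obtain ⟨h3, _, h5⟩ := hc σ h1 (by omega)
    rw [h2] at h3
    exact ⟨h3, h5⟩
  refine ⟨∑ σ ∈ z.support, c σ, On.sum _ _ fun σ hσ => (hc' σ hσ).1, ?_⟩
  rw [map_sum, Finset.sum_congr rfl fun σ hσ => (hc' σ hσ).2, Finset.sum_add_distrib,
    ← ch_eq_sum z]
  let C : Ch (ℤ × Submodule k (E k)) →ₗ[ZMod 2] Ch (ℤ × Submodule k (E k)) :=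
    Finsupp.lsum (ZMod 2) fun σ => LinearMap.toSpanSingleton (ZMod 2) _ (c σ)
  have hC : ∀ σ, C (Finsupp.single σ 1) = c σ := by
    intro σ
    change (Finsupp.lsum (ZMod 2) fun σ => LinearMap.toSpanSingleton (ZMod 2) _ (c σ)) _ = _
    rw [Finsupp.lsum_single, LinearMap.toSpanSingleton_apply, one_smul]
  have h1 : C (bd z) = ∑ σ ∈ z.support, ∑ v ∈ σ, c (σ.erase v) := by
    rw [coneB_bd_sum, map_sum]
    refine Finset.sum_congr rfl fun σ _ => ?_
    rw [map_sum]
    exact Finset.sum_congr rfl fun v _ => hC _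
  rw [← h1, hbz, map_zero, add_zero]

/-- the input needed by part C -/
theorem bInput (n : ℕ) : ∃ q0 : ℕ, ∀ (k : Type) [Field k] [Finite k], q0 ≤ Nat.card k →
    BInput k n := by
  obtain ⟨q0, h⟩ := fills_Fl n
  exact ⟨q0, fun k _ _ hk j0 T hT j hj => h k hk j0 (j0 + n) T le_rfl hT j hj⟩

end Vale.P067.PB
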