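import Vale.Agent.Lib.P067.Ext
import Vale.Agent.Lib.P067.Chain
import Vale.Agent.Lib.P067.Dec

/-!
# P067 B: the link of a vertex of `Fl` is again a complex `Fl`

`act g (i, W) = (i, g W)`.

`link_iff`: by `exists_ext` with `n = (b - a).toNat` and `σ = {(t, W)}` there is `g ∈ U k n` with `g (L i) = L i` for `i ∈ [a,b] ∖ T` and
`g (L t) = W`; `g (M i) = M i` by `U_map_M`. The conditions for `τ ∈ Fl k a b (T.erase t)` (fixed members: those of `T` and `t`)
are carried by `g` to the conditions for `insert (t,W) (g τ) ∈ Fl k a b T`, because `W ≤ W' ↔ g W ≤ g W'`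
(`Submodule.map_le_map_iff_of_injective` or `Submodule.map_le_map_iff'`), `IsCompl` is preserved by the order isomorphism
`Submodule.orderIsoMapComap g`.

`link_fill`: if `z = 0` take `y = 0`; otherwise `{(t,W)} ∈ Fl k a b T` by `Fl_mono`; apply `link_iff`; pull `z` back by the inverse of `g`
(`Finsupp.mapDomain (Finset.image (act g⁻¹))`, `bd_map` of Chain.lean), fill there, push forward. Supports do not grow under `mapDomain`.
-/

namespace Vale.P067.PB

open scoped Classical

variable {k : Type*} [Field k]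

/-- action of a linear automorphism on vertices -/
noncomputable def act (g : E k ≃ₗ[k] E k) (w : ℤ × Submodule k (E k)) : ℤ × Submodule k (E k) :=
  (w.1, w.2.map (g : E k →ₗ[k] E k))

theorem act_act (g h : E k ≃ₗ[k] E k) (w : ℤ × Submodule k (E k)) :
    act g (act h w) = act (g * h) w := by
  unfold act
  refine Prod.ext rfl ?_
  show (w.2.map (h : E k →ₗ[k] E k)).map (g : E k →ₗ[k] E k) = _
  rw [← Submodule.map_comp]
  rfl

theorem act_one (w : ℤ × Submodule k (E k)) : act (1 : E k ≃ₗ[k] E k) w = w := by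
  unfold act
  refine Prod.ext rfl ?_
  show w.2.map (LinearMap.id) = w.2
  exact Submodule.map_id _

theorem act_injective (g : E k ≃ₗ[k] E k) : Function.Injective (act g) := by
  intro v w h
  have h1 := congrArg (act g⁻¹) h
  rwa [act_act, act_act, inv_mul_cancel, act_one, act_one] at h1

private theorem image_act_inv (g : E k ≃ₗ[k] E k) (τ : Finset (ℤ × Submodule k (E k))) :
    (τ.image (act g⁻¹)).image (act g) = τ := by
  rw [Finset.image_image]
  have h : act g ∘ act g⁻¹ = (id : ℤ × Submodule k (E k) → ℤ × Submodule k (E k)) := by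
    funext w
    show act g (act g⁻¹ w) = w
    rw [act_act, mul_inv_cancel, act_one]
  rw [h, Finset.image_id]

private theorem bd_act (g : E k ≃ₗ[k] E k) (z : Ch (ℤ × Submodule k (E k))) :
    bd (z.mapDomain (Finset.image (act g))) = (bd z).mapDomain (Finset.image (act g)) := by
  have h := bd_map (act g) z fun σ _ => (act_injective g).injOn
  have e : (Finset.image (act g) : Finset (ℤ × Submodule k (E k)) → _) =
      @Finset.image _ _ (fun a b => Classical.propDecidable (a = b)) (act g) :=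
    funext fun τ => dec_image _ _ _ _
  rw [e]
  exact h

/-- an automorphism which fixes all `M i` and the fixed members `L i` acts on `Fl` -/
theorem act_mem_Fl {a b : ℤ} {T : Finset ℤ} {g : E k ≃ₗ[k] E k}
    (hM : ∀ i, (M k i).map (g : E k →ₗ[k] E k) = M k i)
    (hL : ∀ i, a ≤ i → i ≤ b → i ∉ T → (L k i).map (g : E k →ₗ[k] E k) = L k i)
    (τ : Finset (ℤ × Submodule k (E k))) :
    τ.image (act g) ∈ Fl k a b T ↔ τ ∈ Fl k a b T := by
  have hle : ∀ X Y : Submodule k (E k),
      X.map (g : E k →ₗ[k] E k) ≤ Y.map (g : E k →ₗ[k] E k) ↔ X ≤ Y := fun X Y =>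
    Submodule.map_le_map_iff_of_injective g.injective X Y
  have hcompl : ∀ (i : ℤ) (X : Submodule k (E k)),
      IsCompl (X.map (g : E k →ₗ[k] E k)) (M k i) ↔ IsCompl X (M k i) := by
    intro i X
    conv_lhs => rw [← hM i]
    exact ((Submodule.orderIsoMapComap g).isCompl_iff (x := X) (y := M k i)).symm
  have hmem : ∀ P : ℤ × Submodule k (E k) → Prop,
      (∀ v ∈ τ.image (act g), P v) ↔ ∀ v ∈ τ, P (act g v) := fun P =>
    Finset.forall_mem_image
  constructor
  · rintro ⟨h1, h2⟩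
    rw [hmem] at h1 h2
    refine ⟨fun v hv => ?_, fun v hv w hw hvw => ?_⟩
    · obtain ⟨h3, h4, h5⟩ := h1 v hv
      refine ⟨h3, (hcompl _ _).1 h4, fun i hi1 hi2 hi3 => ?_⟩
      obtain ⟨h6, h7⟩ := h5 i hi1 hi2 hi3
      rw [← hL i hi1 hi2 hi3] at h6 h7
      exact ⟨fun h => (hle _ _).1 (h6 h), fun h => (hle _ _).1 (h7 h)⟩
    · exact (hle _ _).1 (h2 v hv (act g w) (Finset.mem_image_of_mem _ hw) hvw)
  · rintro ⟨h1, h2⟩
    constructor
    · rw [hmem]
      intro v hv
      obtain ⟨h3, h4, h5⟩ := h1 v hv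
      refine ⟨h3, (hcompl _ _).2 h4, fun i hi1 hi2 hi3 => ?_⟩
      obtain ⟨h6, h7⟩ := h5 i hi1 hi2 hi3
      rw [← hL i hi1 hi2 hi3]
      exact ⟨fun h => (hle _ _).2 (h6 h), fun h => (hle _ _).2 (h7 h)⟩
    · intro v hv w hw hvw
      obtain ⟨v', hv', rfl⟩ := Finset.mem_image.1 hv
      obtain ⟨w', hw', rfl⟩ := Finset.mem_image.1 hw
      exact (hle _ _).2 (h2 v' hv' w' hw' hvw)

private theorem insert_L_iff {a b : ℤ} {T : Finset ℤ} {t : ℤ} (ht : t ∈ T) (h1 : a < t)
    (h2 : t < b) (τ : Finset (ℤ × Submodule k (E k))) (hτ : ∀ w ∈ τ, w.1 ≠ t) :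
    insert (t, L k t) τ ∈ Fl k a b T ↔ τ ∈ Fl k a b (T.erase t) := by
  constructor
  · rintro ⟨h3, h4⟩
    refine ⟨fun v hv => ?_, fun v hv w hw hvw =>
      h4 v (Finset.mem_insert_of_mem hv) w (Finset.mem_insert_of_mem hw) hvw⟩
    obtain ⟨h5, h6, h7⟩ := h3 v (Finset.mem_insert_of_mem hv)
    refine ⟨Finset.mem_erase.2 ⟨hτ v hv, h5⟩, h6, fun i hi1 hi2 hi3 => ?_⟩
    by_cases hit : i = t
    · subst hit
      exact ⟨fun h => h4 (i, L k i) (Finset.mem_insert_self _ _) v (Finset.mem_insert_of_mem hv) h,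
        fun h => h4 v (Finset.mem_insert_of_mem hv) (i, L k i) (Finset.mem_insert_self _ _) h⟩
    · exact h7 i hi1 hi2 fun h => hi3 (Finset.mem_erase.2 ⟨hit, h⟩)
  · rintro ⟨h3, h4⟩
    refine ⟨fun v hv => ?_, fun v hv w hw hvw => ?_⟩
    · rw [Finset.mem_insert] at hv
      rcases hv with rfl | hv
      · exact ⟨ht, isCompl_L_M t, fun i _ _ _ => ⟨fun h => L_mono k h, fun h => L_mono k h⟩⟩
      · obtain ⟨h5, h6, h7⟩ := h3 v hv
        exact ⟨Finset.mem_of_mem_erase h5, h6, fun i hi1 hi2 hi3 =>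
          h7 i hi1 hi2 fun h => hi3 (Finset.mem_of_mem_erase h)⟩
    · rw [Finset.mem_insert] at hv hw
      rcases hv with rfl | hv
      · rcases hw with rfl | hw
        · exact le_rfl
        · exact ((h3 w hw).2.2 t h1.le h2.le (Finset.notMem_erase t T)).1 hvw
      · rcases hw with rfl | hw
        · exact ((h3 v hv).2.2 t h1.le h2.le (Finset.notMem_erase t T)).2 hvw
        · exact h4 v hv w hw hvw

theorem link_iff {a b : ℤ} {T : Finset ℤ} (hT : ∀ i ∈ T, a < i ∧ i < b) {t : ℤ} (ht : t ∈ T)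
    {W : Submodule k (E k)} (hW : ({(t, W)} : Finset (ℤ × Submodule k (E k))) ∈ Fl k a b T) :
    ∃ g : E k ≃ₗ[k] E k, ∀ τ : Finset (ℤ × Submodule k (E k)), (∀ w ∈ τ, w.1 ≠ t) →
      (insert (t, W) (τ.image (act g)) ∈ Fl k a b T ↔ τ ∈ Fl k a b (T.erase t)) := by
  obtain ⟨h1, h2⟩ := hT t ht
  have hn : 0 < (b - a).toNat := by omega
  have hab : b = a + ((b - a).toNat : ℤ) := by omega
  obtain ⟨g, hg, hgL, hgW⟩ := exists_ext hn hab hT hW
  have hgt : (L k t).map (g : E k →ₗ[k] E k) = W := hgW (t, W) (Finset.mem_singleton_self _)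
  refine ⟨g, fun τ hτ => ?_⟩
  have h3 : insert (t, W) (τ.image (act g)) = (insert (t, L k t) τ).image (act g) := by
    rw [Finset.image_insert]
    congr 1
    unfold act
    rw [hgt]
  rw [h3, act_mem_Fl (fun i => U_map_M hg i) hgL]
  exact insert_L_iff ht h1 h2 τ hτ

/-- bounded filling: cycles on `j`-element faces with support at most `s` are filled with support at most `F` -/
def BFill (a b : ℤ) (T : Finset ℤ) (j s F : ℕ) : Prop :=
  ∀ z : Ch (ℤ × Submodule k (E k)), On (Fl k a b T) j z → bd z = 0 → z.support.card ≤ s →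
    ∃ y, On (Fl k a b T) (j + 1) y ∧ bd y = z ∧ y.support.card ≤ F

theorem link_fill {a b : ℤ} {T : Finset ℤ} (hT : ∀ i ∈ T, a < i ∧ i < b) {t : ℤ} (ht : t ∈ T)
    {j s F : ℕ} (hBF : BFill (k := k) a b (T.erase t) j s F) (W : Submodule k (E k))
    (z : Ch (ℤ × Submodule k (E k)))
    (hz : ∀ τ ∈ z.support, (∀ w ∈ τ, w.1 ≠ t) ∧ insert (t, W) τ ∈ Fl k a b T ∧ τ.card = j)
    (hbd : bd z = 0) (hs : z.support.card ≤ s) :
    ∃ y : Ch (ℤ × Submodule k (E k)),
      (∀ τ ∈ y.support, (∀ w ∈ τ, w.1 ≠ t) ∧ insert (t, W) τ ∈ Fl k a b T ∧ τ.card = j + 1) ∧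
      bd y = z ∧ y.support.card ≤ F := by
  by_cases hz0 : z = 0
  · subst hz0
    refine ⟨0, ?_, map_zero _, ?_⟩
    · intro τ hτ
      simp at hτ
    · simp
  · obtain ⟨τ0, hτ0⟩ := Finsupp.support_nonempty_iff.2 hz0
    have hW : ({(t, W)} : Finset (ℤ × Submodule k (E k))) ∈ Fl k a b T := by
      refine Fl_mono (hz τ0 hτ0).2.1 ?_
      rw [Finset.singleton_subset_iff]
      exact Finset.mem_insert_self _ _
    obtain ⟨g, hg⟩ := link_iff hT ht hW
    have hinv := act_injective g⁻¹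
    have hinj := act_injective g
    obtain ⟨y', hy', hby', hsy'⟩ := hBF (z.mapDomain (Finset.image (act g⁻¹))) (by
      intro σ hσ
      obtain ⟨τ, hτ, rfl⟩ := Finset.mem_image.1 (Finsupp.mapDomain_support hσ)
      obtain ⟨h1, h2, h3⟩ := hz τ hτ
      refine ⟨?_, ?_⟩
      · rw [← hg, image_act_inv]
        · exact h2
        · intro w hw
          obtain ⟨w', hw', rfl⟩ := Finset.mem_image.1 hw
          exact h1 w' hw'
      · rw [Finset.card_image_of_injective _ hinv, h3]) (by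
      rw [bd_act, hbd]
      exact Finsupp.mapDomain_zero) (by
      refine le_trans ?_ hs
      exact (Finset.card_le_card Finsupp.mapDomain_support).trans Finset.card_image_le)
    refine ⟨y'.mapDomain (Finset.image (act g)), ?_, ?_, ?_⟩
    · intro σ hσ
      obtain ⟨τ, hτ, rfl⟩ := Finset.mem_image.1 (Finsupp.mapDomain_support hσ)
      obtain ⟨h1, h2⟩ := hy' τ hτ
      have h3 : ∀ w ∈ τ, w.1 ≠ t := fun w hw => Finset.ne_of_mem_erase (h1.1 w hw).1
      refine ⟨?_, (hg τ h3).2 h1, ?_⟩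
      · intro w hw
        obtain ⟨w', hw', rfl⟩ := Finset.mem_image.1 hw
        exact h3 w' hw'
      · rw [Finset.card_image_of_injective _ hinj, h2]
    · rw [bd_act, hby', ← Finsupp.mapDomain_comp]
      conv_rhs => rw [← Finsupp.mapDomain_id (v := z)]
      refine Finsupp.mapDomain_congr fun σ _ => ?_
      exact image_act_inv g σ
    · refine le_trans ?_ hsy'
      exact (Finset.card_le_card Finsupp.mapDomain_support).trans Finset.card_image_le

end Vale.P067.PB
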