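import Vale.Agent.Lib.P067.Chain

/-!
# P067 B: join with one vertex, star decomposition of a cycle

`jn y` adds the vertex `y` to all faces.

`bd_jn`: by linearity (`Finsupp.induction_linear` on chains all of whose faces avoid `y`, or write
`z = ∑ σ ∈ z.support, single σ 1`) enough for `z = single σ 1`, `y ∉ σ`:
`bd (single (insert y σ) 1) = single σ 1 + ∑ v ∈ σ, single ((insert y σ).erase v) 1` and
`(insert y σ).erase v = insert y (σ.erase v)`.

`localize`: `Y` = the set of all `y ∈ P` which belong to a face of `z` (each face contains at most one, so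
`Y.card ≤ z.support.card`: `Y` is contained in the image of `z.support` under a choice function);
`w y = (z.filter (y ∈ ·)).mapDomain (·.erase y)`, `z0 = z.filter (no member in P)`. Then
`jn y (w y) = z.filter (y ∈ ·)`. `bd z = bd z0 + ∑ y ∈ Y, (w y + jn y (bd (w y)))` by `bd_jn`. Coefficient at a face
`insert y ρ`, `y ∉ ρ` with `y ∈ Y`: the faces of `bd z0` and of the `w y'` contain no member of `P`, the faces of
`jn y' (..)`, `y' ≠ y`, contain `y'` and no other member of `P`; so the coefficient of `bd (w y)` at `ρ` is zero.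
-/

namespace Vale.P067.PB

open scoped Classical

variable {V : Type*}

/-- adding the vertex `y` to all faces -/
noncomputable def jn (y : V) : Ch V →ₗ[ZMod 2] Ch V :=
  Finsupp.lmapDomain (ZMod 2) (ZMod 2) (insert y)

theorem jn_single (y : V) (σ : Finset V) :
    jn y (Finsupp.single σ (1 : ZMod 2)) = Finsupp.single (insert y σ) 1 := by
  unfold jn
  rw [Finsupp.lmapDomain_apply, Finsupp.mapDomain_single]

theorem card_support_jn (y : V) (z : Ch V) : (jn y z).support.card ≤ z.support.card := by
  unfold jn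
  rw [Finsupp.lmapDomain_apply]
  exact (Finset.card_le_card Finsupp.mapDomain_support).trans Finset.card_image_le

theorem of_mem_support_jn {y : V} {z : Ch V} {σ : Finset V} (h : σ ∈ (jn y z).support) :
    ∃ τ ∈ z.support, σ = insert y τ := by
  unfold jn at h
  rw [Finsupp.lmapDomain_apply] at h
  obtain ⟨τ, hτ, e⟩ := Finset.mem_image.1 (Finsupp.mapDomain_support h)
  exact ⟨τ, hτ, e.symm⟩

theorem bd_jn (y : V) (z : Ch V) (h : ∀ τ ∈ z.support, y ∉ τ) :
    bd (jn y z) = z + jn y (bd z) := by
  have key := ch_ext (bd.comp (jn y)) (LinearMap.id + (jn y).comp bd) z ?_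
  · simpa using key
  · intro σ hσ
    have hy := h σ hσ
    simp only [LinearMap.add_apply, LinearMap.comp_apply, LinearMap.id_apply]
    rw [jn_single, bd_single, bd_single, map_sum, Finset.sum_insert hy, Finset.erase_insert hy]
    congr 1
    refine Finset.sum_congr rfl fun v hv => ?_
    rw [jn_single, Finset.erase_insert_of_ne]
    rintro rfl
    exact hy hv

/-- faces of a boundary -/
private theorem of_mem_support_bd {z : Ch V} {ρ : Finset V} (h : ρ ∈ (bd z).support) :
    ∃ σ ∈ z.support, ρ ⊆ σ := by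
  rw [bd_apply_sum] at h
  obtain ⟨σ, hσ, h1⟩ := Finset.mem_biUnion.1 (Finsupp.support_finsetSum h)
  obtain ⟨v, _, h2⟩ := Finset.mem_biUnion.1 (Finsupp.support_finsetSum h1)
  have h3 := Finset.mem_singleton.1 (Finsupp.support_single_subset h2)
  exact ⟨σ, hσ, h3 ▸ Finset.erase_subset v σ⟩

/-- star decomposition of a cycle with respect to a set `P` of vertices of which each face contains at most one -/
theorem localize (P : Set V) (z : Ch V)
    (hP : ∀ σ ∈ z.support, ∀ y ∈ σ, ∀ y' ∈ σ, y ∈ P → y' ∈ P → y = y') (hz : bd z = 0) :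
    ∃ (Y : Finset V) (z0 : Ch V) (w : V → Ch V),
      (∀ y ∈ Y, y ∈ P ∧ ∃ σ ∈ z.support, y ∈ σ) ∧ Y.card ≤ z.support.card ∧
      z = z0 + ∑ y ∈ Y, jn y (w y) ∧
      (∀ σ ∈ z0.support, σ ∈ z.support ∧ ∀ y ∈ σ, y ∉ P) ∧
      ∀ y ∈ Y, (∀ τ ∈ (w y).support, y ∉ τ ∧ insert y τ ∈ z.support) ∧ bd (w y) = 0 ∧
        (w y).support.card ≤ z.support.card := by
  set Y : Finset V := z.support.biUnion fun σ => σ.filter (· ∈ P) with hY
  set z0 : Ch V := z.filter (fun σ => ∀ y ∈ σ, y ∉ P) with hz0
  set w : V → Ch V := fun y => (z.filter (fun σ => y ∈ σ)).mapDomain (fun σ => σ.erase y) with hw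
  have mY : ∀ y, y ∈ Y ↔ ∃ σ ∈ z.support, y ∈ σ ∧ y ∈ P := by
    intro y
    rw [hY, Finset.mem_biUnion]
    simp only [Finset.mem_filter]
  have sw : ∀ y, ∀ τ ∈ (w y).support, ∃ σ ∈ z.support, y ∈ σ ∧ τ = σ.erase y := by
    intro y τ hτ
    obtain ⟨σ, hσ, e⟩ := Finset.mem_image.1 (Finsupp.mapDomain_support hτ)
    rw [Finsupp.support_filter, Finset.mem_filter] at hσ
    exact ⟨σ, hσ.1, hσ.2, e.symm⟩
  have sw2 : ∀ y, ∀ τ ∈ (w y).support, y ∉ τ ∧ insert y τ ∈ z.support := by
    intro y τ hτ
    obtain ⟨σ, hσ, hy, rfl⟩ := sw y τ hτ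
    exact ⟨Finset.notMem_erase y σ, by rw [Finset.insert_erase hy]; exact hσ⟩
  have sP : ∀ y ∈ P, ∀ τ ∈ (w y).support, ∀ v ∈ τ, v ∉ P := by
    intro y hyP τ hτ v hv hvP
    obtain ⟨σ, hσ, hy, rfl⟩ := sw y τ hτ
    rw [Finset.mem_erase] at hv
    exact hv.1 (hP σ hσ v hv.2 y hy hvP hyP)
  have jw : ∀ y, jn y (w y) = z.filter (fun σ => y ∈ σ) := by
    intro y
    unfold jn
    rw [Finsupp.lmapDomain_apply, hw]
    simp only
    rw [← Finsupp.mapDomain_comp]
    conv_rhs => rw [← Finsupp.mapDomain_id (v := z.filter (fun σ => y ∈ σ))]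
    refine Finsupp.mapDomain_congr fun σ hσ => ?_
    rw [Finsupp.support_filter, Finset.mem_filter] at hσ
    exact Finset.insert_erase hσ.2
  have dec : z = z0 + ∑ y ∈ Y, jn y (w y) := by
    have e1 : ∑ y ∈ Y, jn y (w y) = ∑ y ∈ Y, z.filter (fun σ => y ∈ σ) :=
      Finset.sum_congr rfl fun y _ => jw y
    rw [e1]
    ext σ
    rw [Finsupp.add_apply, Finsupp.finsetSum_apply]
    by_cases hσ : σ ∈ z.support
    · by_cases hn : ∀ y ∈ σ, y ∉ P
      · rw [hz0, Finsupp.filter_apply_pos _ _ hn]
        rw [Finset.sum_eq_zero, add_zero]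
        intro y hy
        rw [Finsupp.filter_apply_neg]
        intro hyσ
        obtain ⟨_, _, _, hyP⟩ := (mY y).1 hy
        exact hn y hyσ hyP
      · rw [hz0, Finsupp.filter_apply_neg _ _ hn, zero_add]
        push Not at hn
        obtain ⟨y, hyσ, hyP⟩ := hn
        rw [Finset.sum_eq_single_of_mem y ((mY y).2 ⟨σ, hσ, hyσ, hyP⟩)]
        · exact (Finsupp.filter_apply_pos (fun σ => y ∈ σ) z hyσ).symm
        · intro y' hy' hne
          rw [Finsupp.filter_apply_neg]
          intro hy'σ
          obtain ⟨_, _, _, hy'P⟩ := (mY y').1 hy'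
          exact hne (hP σ hσ y' hy'σ y hyσ hy'P hyP)
    · have h0 : z σ = 0 := Finsupp.notMem_support_iff.1 hσ
      rw [h0, hz0]
      have h1 : ∀ (p : Finset V → Prop) [DecidablePred p], (z.filter p) σ = 0 := by
        intro p _
        rw [Finsupp.filter_apply, h0]
        split_ifs <;> rfl
      rw [h1, Finset.sum_eq_zero, add_zero]
      intro y _
      exact h1 _
  refine ⟨Y, z0, w, ?_, ?_, dec, ?_, ?_⟩
  · intro y hy
    obtain ⟨σ, hσ, hyσ, hyP⟩ := (mY y).1 hy
    exact ⟨hyP, σ, hσ, hyσ⟩
  · refine Finset.card_biUnion_le.trans ?_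
    have h1 : ∀ σ ∈ z.support, (σ.filter (· ∈ P)).card ≤ 1 := by
      intro σ hσ
      rw [Finset.card_le_one]
      intro a ha b hb
      rw [Finset.mem_filter] at ha hb
      exact hP σ hσ a ha.1 b hb.1 ha.2 hb.2
    refine (Finset.sum_le_sum h1).trans ?_
    rw [Finset.sum_const, smul_eq_mul, mul_one]
  · intro σ hσ
    rw [hz0, Finsupp.support_filter, Finset.mem_filter] at hσ
    exact hσ
  · intro y hy
    obtain ⟨_, _, _, hyP⟩ := (mY y).1 hy
    refine ⟨sw2 y, ?_, ?_⟩
    · have hbd : bd z0 + ∑ y' ∈ Y, (w y' + jn y' (bd (w y'))) = 0 := by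
        have h1 := hz
        rw [dec, map_add, map_sum] at h1
        rw [← h1]
        congr 1
        refine Finset.sum_congr rfl fun y' _ => ?_
        rw [bd_jn y' (w y') fun τ hτ => (sw2 y' τ hτ).1]
      ext ρ
      rw [Finsupp.zero_apply]
      by_cases hyρ : y ∈ ρ
      · by_contra hne
        obtain ⟨τ, hτ, hsub⟩ := of_mem_support_bd (Finsupp.mem_support_iff.2 hne)
        exact (sw2 y τ hτ).1 (hsub hyρ)
      · have h2 := congrArg (fun u : Ch V => u (insert y ρ)) hbd
        simp only [Finsupp.add_apply, Finsupp.finsetSum_apply, Finsupp.zero_apply] at h2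
        have t0 : (bd z0) (insert y ρ) = 0 := by
          by_contra hne
          obtain ⟨σ, hσ, hsub⟩ := of_mem_support_bd (Finsupp.mem_support_iff.2 hne)
          rw [hz0, Finsupp.support_filter, Finset.mem_filter] at hσ
          exact hσ.2 y (hsub (Finset.mem_insert_self y ρ)) hyP
        have t1 : ∀ y' ∈ Y, (w y') (insert y ρ) = 0 := by
          intro y' hy'
          obtain ⟨_, _, _, hy'P⟩ := (mY y').1 hy'
          by_contra hne
          exact sP y' hy'P _ (Finsupp.mem_support_iff.2 hne) y (Finset.mem_insert_self y ρ) hyP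
        have t2 : ∀ y' ∈ Y, y' ≠ y → (jn y' (bd (w y'))) (insert y ρ) = 0 := by
          intro y' hy' hne'
          obtain ⟨_, _, _, hy'P⟩ := (mY y').1 hy'
          by_contra hne
          obtain ⟨ρ', hρ', e⟩ := of_mem_support_jn (Finsupp.mem_support_iff.2 hne)
          obtain ⟨τ, hτ, hsub⟩ := of_mem_support_bd hρ'
          have h3 : y ∈ insert y' ρ' := by
            rw [← e]
            exact Finset.mem_insert_self y ρ
          rcases Finset.mem_insert.1 h3 with h4 | h4
          · exact hne' h4.symm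
          · exact sP y' hy'P τ hτ y (hsub h4) hyP
        have t3 : (jn y (bd (w y))) (insert y ρ) = (bd (w y)) ρ := by
          unfold jn
          rw [Finsupp.lmapDomain_apply]
          refine Finsupp.mapDomain_apply' {σ | y ∉ σ} (bd (w y)) ?_ ?_ hyρ
          · intro σ hσ
            obtain ⟨τ, hτ, hsub⟩ := of_mem_support_bd hσ
            exact fun hyσ => (sw2 y τ hτ).1 (hsub hyσ)
          · intro σ hσ σ' hσ' e
            have e1 : (insert y σ).erase y = (insert y σ').erase y :=
              congrArg (fun u => Finset.erase u y) e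
            rw [Finset.erase_insert hσ, Finset.erase_insert hσ'] at e1
            exact e1
        have h5 : ∑ y' ∈ Y, ((w y') (insert y ρ) + (jn y' (bd (w y'))) (insert y ρ)) =
            (bd (w y)) ρ := by
          rw [Finset.sum_eq_single_of_mem y hy]
          · rw [t1 y hy, t3, zero_add]
          · intro y' hy' hne'
            rw [t1 y' hy', t2 y' hy' hne', zero_add]
        rw [t0, h5, zero_add] at h2
        exact h2
    · change (Finsupp.mapDomain (fun σ => σ.erase y)
        (z.filter (fun σ => y ∈ σ))).support.card ≤ _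
      refine (Finset.card_le_card Finsupp.mapDomain_support).trans
        (Finset.card_image_le.trans ?_)
      rw [Finsupp.support_filter]
      exact Finset.card_le_card (Finset.filter_subset _ _)

end Vale.P067.PB
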