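import Vale.Agent.Lib.P067.B.Link

/-!
# P067 B: `Fl` for the window `(j0, j0+n)` is the link of a face of type `J0 ∋ j0` in the coset complex of `U k n`

`widx j0 s` = the integer in `(j0, j0+n)` congruent to `s ≠ j0` modulo `n`; `wT J0 j0` = the set of these for `s ∉ J0`.

`mem_Fl_iff`: (→) types of `σ`: each vertex `w` has `w.1 = widx s_w` with `s_w ∉ J0` (different vertices have different `w.1` by `Fl_inj`); `J` = the set of these `s`.
`exists_ext` (`0 < n` because `j0 : Fin n`) gives `g ∈ U k n` with `g (L i) = L i` for `i ∈ [j0, j0+n] ∖ T` and `g (L w.1) = w.2`. For `s ∈ J0`: `s = j0` or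
`i = widx s ∉ T` (injectivity of `widx`), `g (L i) = L i`, so `g ∈ St s` by `U_St_mod` (`i ≡ s mod n`). So `g ∈ HH (Hs k n) J0`.
(←) for `i ∈ [j0, j0+n] ∖ T` the residue of `i` is in `J0`, so `g (L i) = L i` (`U_St_mod`); apply `act_mem_Fl` to the standard face
`J.image (fun s => (widx s, L (widx s)))`, which is in `Fl` (`L_mono`, `isCompl_L_M`).
-/

namespace Vale.P067.PB

open scoped Classical

variable {k : Type*} [Field k] {n : ℕ}

/-- the integer in `(j0, j0 + n)` congruent to `s ≠ j0` -/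
def widx (j0 s : Fin n) : ℤ := if j0 < s then (s : ℤ) else (s : ℤ) + n

/-- the movable indices in the window -/
def wT (J0 : Finset (Fin n)) (j0 : Fin n) : Finset ℤ := (J0ᶜ).image (widx j0)

theorem widx_modEq (j0 s : Fin n) : widx j0 s ≡ (s : ℤ) [ZMOD n] := by
  unfold widx
  split_ifs
  · exact Int.ModEq.refl _
  · exact Int.add_modEq_right

theorem widx_mem {j0 s : Fin n} (h : s ≠ j0) : (j0 : ℤ) < widx j0 s ∧ widx j0 s < j0 + n := by
  have h1 : (s : ℕ) ≠ (j0 : ℕ) := fun e => h (Fin.ext e)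
  have h2 := s.isLt
  have h3 := j0.isLt
  unfold widx
  split_ifs with h0
  · have h4 : (j0 : ℕ) < (s : ℕ) := h0
    constructor <;> omega
  · have h4 : ¬ (j0 : ℕ) < (s : ℕ) := h0
    constructor <;> omega

theorem widx_inj {j0 s s' : Fin n} (h : widx j0 s = widx j0 s') : s = s' := by
  have h2 := s.isLt
  have h3 := s'.isLt
  unfold widx at h
  apply Fin.ext
  split_ifs at h <;> omega

theorem exists_widx {j0 : Fin n} {i : ℤ} (h1 : (j0 : ℤ) < i) (h2 : i < j0 + n) :
    ∃ s : Fin n, s ≠ j0 ∧ i = widx j0 s := by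
  have h3 := j0.isLt
  by_cases hi : i < n
  · refine ⟨⟨i.toNat, by omega⟩, ?_, ?_⟩
    · intro e
      have := congrArg Fin.val e
      simp only at this
      omega
    · have h4 : j0 < (⟨i.toNat, by omega⟩ : Fin n) := by
        rw [Fin.lt_def]
        simp only
        omega
      unfold widx
      rw [if_pos h4]
      simp only
      omega
  · refine ⟨⟨(i - n).toNat, by omega⟩, ?_, ?_⟩
    · intro e
      have := congrArg Fin.val e
      simp only at this
      omega
    · have h4 : ¬ j0 < (⟨(i - n).toNat, by omega⟩ : Fin n) := by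
        rw [Fin.lt_def]
        simp only
        omega
      unfold widx
      rw [if_neg h4]
      simp only
      omega

theorem wT_card (J0 : Finset (Fin n)) (j0 : Fin n) : (wT J0 j0).card = n - J0.card := by
  unfold wT
  rw [Finset.card_image_of_injective _ (fun _ _ h => widx_inj h), Finset.card_compl,
    Fintype.card_fin]

private theorem mem_wT {J0 : Finset (Fin n)} {j0 s : Fin n} :
    widx j0 s ∈ wT J0 j0 ↔ s ∉ J0 := by
  unfold wT
  rw [Finset.mem_image]
  constructor
  · rintro ⟨s', h1, h2⟩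
    rw [← widx_inj h2]
    exact Finset.mem_compl.1 h1
  · intro h
    exact ⟨s, Finset.mem_compl.2 h, rfl⟩

theorem wT_mem {J0 : Finset (Fin n)} {j0 : Fin n} (hj : j0 ∈ J0) :
    ∀ i ∈ wT J0 j0, (j0 : ℤ) < i ∧ i < j0 + n := by
  intro i hi
  unfold wT at hi
  obtain ⟨s, hs, rfl⟩ := Finset.mem_image.1 hi
  exact widx_mem fun e => Finset.mem_compl.1 hs (e ▸ hj)

theorem act_stab {J0 : Finset (Fin n)} {j0 : Fin n} (hj : j0 ∈ J0) {s : Fin n} (hs : s ∉ J0)
    (g : HH (Hs k n) J0) :
    act ((g : U k n) : E k ≃ₗ[k] E k) (widx j0 s, L k (widx j0 s)) = (widx j0 s, L k (widx j0 s)) ↔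
      (g : U k n) ∈ Hs k n s := by
  have _ := hj
  have _ := hs
  have h1 : ((g : U k n) : E k ≃ₗ[k] E k) ∈ St k (widx j0 s) ↔
      ((g : U k n) : E k ≃ₗ[k] E k) ∈ St k (s : ℤ) := U_St_mod (g : U k n).2 (widx_modEq j0 s)
  constructor
  · intro h
    exact h1.1 (congrArg Prod.snd h)
  · intro h
    exact Prod.ext rfl (h1.2 h)

theorem mem_Fl_iff {J0 : Finset (Fin n)} {j0 : Fin n} (hj : j0 ∈ J0)
    (σ : Finset (ℤ × Submodule k (E k))) :
    σ ∈ Fl k j0 (j0 + n) (wT J0 j0) ↔
      ∃ (g : HH (Hs k n) J0) (J : Finset (Fin n)), Disjoint J J0 ∧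
        σ = J.image fun s => act ((g : U k n) : E k ≃ₗ[k] E k) (widx j0 s, L k (widx j0 s)) := by
  have hn : 0 < n := lt_of_le_of_lt (Nat.zero_le _) j0.isLt
  constructor
  · intro hσ
    obtain ⟨g, hgU, hg1, hg2⟩ := exists_ext hn rfl (wT_mem hj) hσ
    have hgH : (⟨g, hgU⟩ : U k n) ∈ HH (Hs k n) J0 := by
      unfold HH
      rw [Subgroup.mem_iInf]
      intro s
      rw [Subgroup.mem_iInf]
      intro hs
      change g ∈ St k (s : ℤ)
      by_cases hsj : s = j0
      · subst hsj
        exact hg1 s le_rfl (by omega) fun h => lt_irrefl _ (wT_mem hj _ h).1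
      · have h1 := widx_mem hsj
        exact (U_St_mod hgU (widx_modEq j0 s)).1
          (hg1 _ h1.1.le h1.2.le fun h => mem_wT.1 h hs)
    refine ⟨⟨⟨g, hgU⟩, hgH⟩, Finset.univ.filter fun s => ∃ v ∈ σ, v.1 = widx j0 s, ?_, ?_⟩
    · rw [Finset.disjoint_left]
      intro s hs
      obtain ⟨v, hv, hvs⟩ := (Finset.mem_filter.1 hs).2
      have h1 := (hσ.1 v hv).1
      rw [hvs] at h1
      exact mem_wT.1 h1
    · ext v
      rw [Finset.mem_image]
      constructor
      · intro hv
        have h1 := (hσ.1 v hv).1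
        unfold wT at h1
        obtain ⟨s, _, hs⟩ := Finset.mem_image.1 h1
        refine ⟨s, Finset.mem_filter.2 ⟨Finset.mem_univ _, v, hv, hs.symm⟩, ?_⟩
        refine Prod.ext hs ?_
        have h2 := hg2 v hv
        rw [← hs] at h2
        exact h2
      · rintro ⟨s, hs, rfl⟩
        obtain ⟨v, hv, hvs⟩ := (Finset.mem_filter.1 hs).2
        have h2 := hg2 v hv
        rw [hvs] at h2
        have h3 : act g (widx j0 s, L k (widx j0 s)) = v := Prod.ext hvs.symm h2
        change act g (widx j0 s, L k (widx j0 s)) ∈ σ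
        rw [h3]
        exact hv
  · rintro ⟨g, J, hJ, rfl⟩
    have e : (J.image fun s => act ((g : U k n) : E k ≃ₗ[k] E k) (widx j0 s, L k (widx j0 s))) =
        (J.image fun s => ((widx j0 s, L k (widx j0 s)) : ℤ × Submodule k (E k))).image
          (act ((g : U k n) : E k ≃ₗ[k] E k)) := by
      rw [Finset.image_image]
      rfl
    rw [e]
    have hgU := (g : U k n).2
    have hgS : ∀ s ∈ J0, ((g : U k n) : E k ≃ₗ[k] E k) ∈ St k (s : ℤ) := by
      intro s hs
      have h1 := g.2
      unfold HH at h1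
      rw [Subgroup.mem_iInf] at h1
      have h2 := h1 s
      rw [Subgroup.mem_iInf] at h2
      exact h2 hs
    rw [act_mem_Fl (fun i => U_map_M hgU i)]
    · constructor
      · intro v hv
        obtain ⟨s, hs, rfl⟩ := Finset.mem_image.1 hv
        exact ⟨mem_wT.2 (Finset.disjoint_left.1 hJ hs), isCompl_L_M _,
          fun i _ _ _ => ⟨fun h => L_mono k h, fun h => L_mono k h⟩⟩
      · intro v hv w hw hvw
        obtain ⟨s, hs, rfl⟩ := Finset.mem_image.1 hv
        obtain ⟨s', hs', rfl⟩ := Finset.mem_image.1 hw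
        exact L_mono k hvw
    · intro i hi1 hi2 hi3
      change ((g : U k n) : E k ≃ₗ[k] E k) ∈ St k i
      rcases eq_or_lt_of_le hi1 with h1 | h1
      · rw [← h1]
        exact hgS j0 hj
      · rcases eq_or_lt_of_le hi2 with h2 | h2
        · rw [h2]
          exact (U_St_add hgU _).2 (hgS j0 hj)
        · obtain ⟨s, hs, rfl⟩ := exists_widx h1 h2
          refine (U_St_mod hgU (widx_modEq j0 s)).2 (hgS s ?_)
          by_contra h3
          exact hi3 (mem_wT.2 h3)

end Vale.P067.PB
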