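import Vale.Agent.Lib.P067.Defs

/-!
# P067 B: transport of link expansion along an isomorphism of the stabilizer `HH H J0`

`ι : Γ → G` injective with image `HH H J0`; `H' s = (H s).comap ι`. `HH H' J = (HH H J).comap ι`, `HH H' J0 = ⊤`, and `ι` induces bijections
`HH H' (J0 ∪ J) ≃ HH H (J0 ∪ J)`.
For every left coset of `HH H J0` in `G` choose a representative `r` (`Quotient.out` of `G ⧸ HH H J0`); `g_r J γ = g J (r * ι γ)` is `InvL H' J0 (i+1)`;
the hypothesis gives `b_r`. Put `b J y = b_{r} J γ` where `r` is the representative of the coset of `y` and `ι γ = r⁻¹ y` (`γ` unique).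
`InvL H J0 i b`: `y` and `y h` (`h ∈ HH H (J0 ∪ J) ≤ HH H J0`) are in the same coset. For `x = r * ι γ0`:
`nm H J0 x i' f = nm H' J0 γ0 i' (fun J γ => f J (r * ι γ))` (reindex the finsum by the bijection `HH H' J0 ≃ HH H J0`), and
`(g - dl b) J (r * ι γ) = (g_r - dl b_r) J γ`, `(dl g) J (r * ι γ) = dl g_r J γ`.
-/

namespace Vale.P067.PB

open scoped Classical

private theorem mem_HH' {S G : Type*} [Group G] (H : S → Subgroup G) (J : Finset S) (g : G) :
    g ∈ HH H J ↔ ∀ s ∈ J, g ∈ H s := by
  unfold HH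
  simp only [Subgroup.mem_iInf]

private theorem mem_HH_comap {S G Γ : Type*} [Group G] [Group Γ] (ι : Γ →* G)
    (H : S → Subgroup G) (J : Finset S) (γ : Γ) :
    γ ∈ HH (fun s => (H s).comap ι) J ↔ ι γ ∈ HH H J := by
  simp only [mem_HH', Subgroup.mem_comap]

theorem linkExp_transport {S G Γ : Type*} [Fintype S] [Group G] [Group Γ] (ι : Γ →* G)
    (hι : Function.Injective ι) (H : S → Subgroup G) (J0 : Finset S)
    (hr : ι.range = HH H J0) {i : ℕ} {β : ℝ}
    (h : LinkExp (fun s => (H s).comap ι) J0 i β) : LinkExp H J0 i β := by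
  intro g hg
  have hmem : ∀ γ, ι γ ∈ HH H J0 := fun γ => by rw [← hr]; exact ⟨γ, rfl⟩
  have hsub : ∀ J : Finset S, ∀ k ∈ HH H (J0 ∪ J), k ∈ HH H J0 := by
    intro J k hk
    rw [mem_HH'] at hk ⊢
    exact fun s hs => hk s (Finset.mem_union_left _ hs)
  -- representatives
  let r : G → G := fun y => ((y : G ⧸ HH H J0)).out
  have hr1 : ∀ y, (r y)⁻¹ * y ∈ HH H J0 := by
    intro y
    rw [← QuotientGroup.eq]
    exact Quotient.out_eq _
  have hr2 : ∀ y, ∀ k ∈ HH H J0, r (y * k) = r y := by
    intro y k hk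
    have : ((y * k : G) : G ⧸ HH H J0) = ((y : G) : G ⧸ HH H J0) :=
      QuotientGroup.mk_mul_of_mem y hk
    change ((y * k : G) : G ⧸ HH H J0).out = ((y : G) : G ⧸ HH H J0).out
    rw [this]
  have hex : ∀ y, ∃ γ : Γ, ι γ = (r y)⁻¹ * y := by
    intro y
    have := hr1 y
    rw [← hr] at this
    exact this
  choose c hc using hex
  -- the pieces
  have hginv : ∀ r0 : G, InvL (fun s => (H s).comap ι) J0 (i + 1) (fun J γ => g J (r0 * ι γ)) := by
    intro r0 J hJ hJc γ δ hδ
    have hδ' := (mem_HH_comap ι H (J0 ∪ J) δ).1 hδ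
    have := hg J hJ hJc (r0 * ι γ) (ι δ) hδ'
    change g J (r0 * ι (γ * δ)) = g J (r0 * ι γ)
    rw [map_mul, ← mul_assoc]
    exact this
  choose b hb1 hb2 using fun r0 : G => h _ (hginv r0)
  refine ⟨fun J y => b (r y) J (c y), ?_, ?_⟩
  · intro J hJ hJc y k hk
    have hk0 := hsub J k hk
    have hk1 : ∃ δ, ι δ = k := by
      rw [← hr] at hk0; exact hk0
    obtain ⟨δ, rfl⟩ := hk1
    have e1 : r (y * ι δ) = r y := hr2 y _ hk0
    have e2 : c (y * ι δ) = c y * δ := by
      apply hι
      rw [hc, e1, map_mul, hc]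
      group
    change b (r (y * ι δ)) J (c (y * ι δ)) = b (r y) J (c y)
    rw [e1, e2]
    exact hb1 (r y) J hJ hJc (c y) δ ((mem_HH_comap ι H (J0 ∪ J) δ).2 hk)
  · intro x
    have key : ∀ γ, r (r x * ι γ) = r x ∧ c (r x * ι γ) = γ := by
      intro γ
      have e1 : r x * ι γ = x * ((ι (c x))⁻¹ * ι γ) := by
        rw [hc]; group
      have e2 : r (r x * ι γ) = r x := by
        rw [e1]
        exact hr2 x _ ((HH H J0).mul_mem ((HH H J0).inv_mem (hmem _)) (hmem _))
      refine ⟨e2, ?_⟩
      apply hι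
      rw [hc, e2]
      group
    let e : HH (fun s => (H s).comap ι) J0 ≃ HH H J0 :=
      Equiv.ofBijective (fun δ => ⟨ι δ.1, hmem _⟩) (by
        constructor
        · intro a b hab
          have := congrArg Subtype.val hab
          exact Subtype.ext (hι this)
        · rintro ⟨k, hk⟩
          have hk1 : ∃ δ, ι δ = k := by
            have hk' := hk
            rw [← hr] at hk'; exact hk'
          obtain ⟨δ, rfl⟩ := hk1
          exact ⟨⟨δ, (mem_HH_comap ι H J0 δ).2 hk⟩, rfl⟩)
    have hav : ∀ φ : G → ℝ, av H J0 x φ =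
        av (fun s => (H s).comap ι) J0 (c x) (fun γ => φ (r x * ι γ)) := by
      intro φ
      unfold av
      rw [Nat.card_congr e]
      congr 1
      rw [← finsum_comp_equiv e]
      apply finsum_congr
      intro δ
      change φ (x * ι δ.1) = φ (r x * ι (c x * δ.1))
      rw [map_mul, hc]
      congr 1
      group
    have hnm : ∀ (i' : ℕ) (f : Finset S → G → ZMod 2), nm H J0 x i' f =
        nm (fun s => (H s).comap ι) J0 (c x) i' (fun J γ => f J (r x * ι γ)) := by
      intro i' f
      unfold nm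
      apply Finset.sum_congr rfl
      intro J _
      rw [hav]
    rw [hnm, hnm]
    have e3 : (fun J γ => (g - dl (fun J y => b (r y) J (c y))) J (r x * ι γ)) =
        (fun J γ => g J (r x * ι γ)) - dl (b (r x)) := by
      funext J γ
      simp only [Pi.sub_apply, dl, (key γ).1, (key γ).2]
    have e4 : (fun J γ => dl g J (r x * ι γ)) = dl (fun J γ => g J (r x * ι γ)) := by
      funext J γ
      simp only [dl]
    rw [e3, e4]
    exact hb2 (r x) (c x)

end Vale.P067.PB
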