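import Vale.Agent.Lib.P067.B.ConeB
import Vale.Agent.Lib.P067.B.AvgA
import Vale.Agent.Lib.P067.B.Transport
import Vale.Agent.Lib.P067.B.Orbit
import Vale.Agent.Lib.P067.GmEmb
import Vale.Agent.Lib.P067.Interface

/-!
# P067: part B
-/

namespace Vale.P067.PB

open scoped Classical

theorem partB : PartB := by
  intro n
  obtain ⟨Mc, q0, hcone⟩ := exists_cone n
  refine ⟨1 / (2 ^ n * (Mc + 1)), by positivity, q0, ?_⟩
  intro k _ _ hk m hm J0 hJ0 i hi
  obtain ⟨j0, hj0⟩ := hJ0
  have hJ0' : J0.Nonempty := ⟨j0, hj0⟩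
  obtain ⟨c, hc⟩ := hcone k (by rwa [Nat.card_eq_fintype_card]) (j0 : ℤ) ((j0 : ℤ) + n) (wT J0 j0)
    le_rfl (wT_mem hj0)
  have hfin : Finite (HH (Hs k n) J0) := finite_HH hJ0'
  apply linkExp_transport (emb k n m J0) (emb_injective hm hJ0') (Hm k n m) J0
    (emb_range hm hJ0')
  have h1 : (fun s => (Hm k n m s).comap (emb k n m J0)) =
      fun s => (Hs k n s).comap (HH (Hs k n) J0).subtype := by
    funext s
    exact emb_comap hm hJ0' s
  rw [h1]
  have key := linkExp_of_cone (S := Fin n) (Γ := HH (Hs k n) J0)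
    (V := ℤ × Submodule k (E k))
    (fun g v => act ((g : U k n) : E k ≃ₗ[k] E k) v)
    (fun v => act_one v)
    (fun g h v => (act_act _ _ v).symm)
    (fun s => (Hs k n s).comap (HH (Hs k n) J0).subtype) J0
    (fun s => (widx j0 s, L k (widx j0 s)))
    (by
      intro s hs
      rw [eq_top_iff]
      intro g _
      have hg : (g : U k n) ∈ HH (Hs k n) J0 := g.2
      unfold HH at hg
      rw [Subgroup.mem_iInf] at hg
      have := hg s
      rw [Subgroup.mem_iInf] at this
      exact this hs)
    (fun s hs g => act_stab hj0 hs g)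
    (fun s s' _ _ g h => widx_inj (congrArg Prod.fst h))
    (Fl k j0 (j0 + n) (wT J0 j0))
    (by
      intro σ
      rw [mem_Fl_iff hj0]
      constructor
      · rintro ⟨g, J, hJ, rfl⟩
        refine ⟨g, J, hJ, ?_⟩
        ext x
        simp only [Finset.mem_image]
      · rintro ⟨g, J, hJ, rfl⟩
        refine ⟨g, J, hJ, ?_⟩
        ext x
        simp only [Finset.mem_image])
    i Mc c
    (by
      intro σ hσ hcard
      have hT := wT_card J0 j0
      have := hc σ hσ (by omega)
      refine ⟨this.1, this.2.1, ?_⟩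
      rw [this.2.2]
      congr 1
      refine Finset.sum_congr rfl fun w _ => ?_
      congr 1
      ext x
      simp only [Finset.mem_erase])
  rwa [Fintype.card_fin] at key

end Vale.P067.PB
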