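import Vale.Agent.Lib.P067.Chain

/-!
# P067 B: the abstract prism

`idx : V → ℤ`, `w0 : V`, `φ : V → V`. For a face `σ` all of whose vertices have different indices, different from
`idx w0`, and such that `idx (φ x) = idx x + 1` for `x = w0` and all `x ∈ σ` with `idx w0 < idx x`, let
`σ_o = {x ∈ σ | idx x < idx w0}`, `σ_β = {x ∈ σ | idx w0 < idx x} = {x_1, …, x_r}` (increasing index), `x_0 = w0`.
`pf x_s σ = σ_o ∪ {x_1, …, x_s} ∪ {φ x_s, …, φ x_r}` (`s = 0, …, r`; here `w0` itself is not inserted) and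
`prism σ = ∑_s pf x_s σ`.

`card_pf`: the index is injective on `pf x σ` (indices of the first part are `≤ idx x`, of the second `> idx x`).

`bd_prism`: put `q_s = σ_o ∪ {x_1, …, x_s} ∪ {φ x_{s+1}, …, φ x_r}`. Erasing from `pf x_s σ` the vertex `x_s` (for `s ≥ 1`) gives
`q_{s-1}`, erasing `φ x_s` gives `q_s`, erasing any other vertex `v ∈ σ` or `φ v`, `v ∈ σ_β`, gives `pf x_s (σ.erase v)`
(for `v = x_l`: if `l < s` erase `x_l`, if `l > s` erase `φ x_l`). The sum of the first two kinds telescopes to `q_r = σ`.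
(Suggestion: induction on the number of vertices of `σ_β`, or on the maximal vertex; or a direct bijection
between the pairs; or write `q` as a function `Q : ℤ → Finset V`,
`Q m = σ.filter (idx · ≤ m) ∪ ((insert w0 σ).filter (m < idx ·)).image φ` for `m ≥ idx w0` and note
`bd (pf x σ) = Q (idx x) + Q (idx x - 1) + …` for `x ∈ σ_β`; `Q (m)` only changes at the indices of members of `σ_β`.)

`prism_fill`: `y = ∑ σ ∈ z.support, prism σ`; `bd y = z + ∑ σ ∈ z.support, ∑ v ∈ σ, prism (σ.erase v)`, and the last sum is the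
linear extension of `prism` applied to `bd z = 0`.
-/

namespace Vale.P067.PB

open scoped Classical

variable {V : Type*}

/-- the face `pf x σ` of the prism over `σ` -/
noncomputable def pf (idx : V → ℤ) (w0 : V) (φ : V → V) (x : V) (σ : Finset V) : Finset V :=
  σ.filter (fun v => idx v ≤ idx x) ∪
    ((insert w0 σ).filter (fun v => idx x ≤ idx v)).image φ

/-- the prism over `σ` -/
noncomputable def prism (idx : V → ℤ) (w0 : V) (φ : V → V) (σ : Finset V) : Ch V :=
  ∑ x ∈ (insert w0 σ).filter (fun v => idx w0 ≤ idx v),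
    Finsupp.single (pf idx w0 φ x σ) (1 : ZMod 2)

/-- `σ` is admissible for the prism -/
def PrOK (idx : V → ℤ) (w0 : V) (φ : V → V) (σ : Finset V) : Prop :=
  (∀ x ∈ σ, idx x ≠ idx w0) ∧ (∀ x ∈ σ, ∀ y ∈ σ, idx x = idx y → x = y) ∧
    ∀ x ∈ insert w0 σ, idx w0 ≤ idx x → idx (φ x) = idx x + 1

private theorem w0_notMem {idx : V → ℤ} {w0 : V} {φ : V → V} {σ : Finset V}
    (h : PrOK idx w0 φ σ) : w0 ∉ σ := fun h0 => h.1 w0 h0 rfl

/-- the index is injective on `insert w0 σ` -/
private theorem idx_inj {idx : V → ℤ} {w0 : V} {φ : V → V} {σ : Finset V}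
    (h : PrOK idx w0 φ σ) {x y : V} (hx : x ∈ insert w0 σ) (hy : y ∈ insert w0 σ)
    (hxy : idx x = idx y) : x = y := by
  rcases Finset.mem_insert.1 hx with ex | hx
  · rcases Finset.mem_insert.1 hy with ey | hy
    · rw [ex, ey]
    · rw [ex] at hxy
      exact absurd hxy.symm (h.1 y hy)
  · rcases Finset.mem_insert.1 hy with ey | hy
    · rw [ey] at hxy
      exact absurd hxy (h.1 x hx)
    · exact h.2.1 x hx y hy hxy

private theorem phi_injOn {idx : V → ℤ} {w0 : V} {φ : V → V} {σ : Finset V}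
    (h : PrOK idx w0 φ σ) {x : V} (hx' : idx w0 ≤ idx x) :
    Set.InjOn φ ((insert w0 σ).filter (fun v => idx x ≤ idx v) : Set V) := by
  intro a ha b hb hab
  have ha' := Finset.mem_filter.1 (Finset.mem_coe.1 ha)
  have hb' := Finset.mem_filter.1 (Finset.mem_coe.1 hb)
  have e1 := h.2.2 a ha'.1 (hx'.trans ha'.2)
  have e2 := h.2.2 b hb'.1 (hx'.trans hb'.2)
  rw [hab] at e1
  exact idx_inj h ha'.1 hb'.1 (by omega)

private theorem pf_disj {idx : V → ℤ} {w0 : V} {φ : V → V} {σ : Finset V}
    (h : PrOK idx w0 φ σ) {x : V} (hx' : idx w0 ≤ idx x) :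
    Disjoint (σ.filter (fun v => idx v ≤ idx x))
      (((insert w0 σ).filter (fun v => idx x ≤ idx v)).image φ) := by
  rw [Finset.disjoint_left]
  intro v hv hv'
  obtain ⟨a, ha, rfl⟩ := Finset.mem_image.1 hv'
  have h1 := (Finset.mem_filter.1 hv).2
  have h2 := Finset.mem_filter.1 ha
  have e1 := h.2.2 a h2.1 (hx'.trans h2.2)
  have h3 := h2.2
  omega

/-- sum over the face `pf x σ`, split -/
private theorem sum_pf {idx : V → ℤ} {w0 : V} {φ : V → V} {σ : Finset V}
    (h : PrOK idx w0 φ σ) {x : V} (hx : x ∈ insert w0 σ) (hx' : idx w0 ≤ idx x)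
    {M : Type*} [AddCommMonoid M] (f : V → M) (g : V → M)
    (h1 : ∀ v ∈ σ, idx v < idx x → f v = g v)
    (h2 : ∀ v ∈ σ, idx x < idx v → f (φ v) = g v) :
    ∑ v ∈ pf idx w0 φ x σ, f v =
      ∑ v ∈ σ.erase x, g v + ((if x ∈ σ then f x else 0) + f (φ x)) := by
  have hw := w0_notMem h
  unfold pf
  rw [Finset.sum_union (pf_disj h hx'), Finset.sum_image (phi_injOn h hx')]
  have hC : (insert w0 σ).filter (fun v => idx x ≤ idx v) =
      insert x (σ.filter (fun v => idx x < idx v)) := by
    ext v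
    constructor
    · intro hv
      obtain ⟨a1, a2⟩ := Finset.mem_filter.1 hv
      rw [Finset.mem_insert, Finset.mem_filter]
      rcases a2.lt_or_eq with a3 | a3
      · rcases Finset.mem_insert.1 a1 with e | a1
        · rw [e] at a3
          omega
        · exact Or.inr ⟨a1, a3⟩
      · exact Or.inl (idx_inj h hx a1 a3).symm
    · intro hv
      rcases Finset.mem_insert.1 hv with e | hv
      · rw [e]
        exact Finset.mem_filter.2 ⟨hx, le_rfl⟩
      · obtain ⟨a1, a2⟩ := Finset.mem_filter.1 hv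
        exact Finset.mem_filter.2 ⟨Finset.mem_insert_of_mem a1, a2.le⟩
  have hxC : x ∉ σ.filter (fun v => idx x < idx v) := by
    rw [Finset.mem_filter]
    rintro ⟨_, a2⟩
    exact lt_irrefl _ a2
  rw [hC, Finset.sum_insert hxC]
  have e2 : ∑ v ∈ σ.filter (fun v => idx x < idx v), f (φ v) =
      ∑ v ∈ σ.filter (fun v => idx x < idx v), g v :=
    Finset.sum_congr rfl fun v hv =>
      h2 v (Finset.mem_filter.1 hv).1 (Finset.mem_filter.1 hv).2
  have e1 : ∑ v ∈ σ.filter (fun v => idx v ≤ idx x), f v =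
      ∑ v ∈ σ.filter (fun v => idx v < idx x), g v + (if x ∈ σ then f x else 0) := by
    split_ifs with hxs
    · have hA : σ.filter (fun v => idx v ≤ idx x) =
          insert x (σ.filter (fun v => idx v < idx x)) := by
        ext v
        rw [Finset.mem_filter, Finset.mem_insert, Finset.mem_filter]
        constructor
        · rintro ⟨a1, a2⟩
          rcases a2.lt_or_eq with a3 | a3
          · exact Or.inr ⟨a1, a3⟩
          · exact Or.inl (h.2.1 v a1 x hxs a3)
        · rintro (rfl | ⟨a1, a2⟩)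
          · exact ⟨hxs, le_rfl⟩
          · exact ⟨a1, a2.le⟩
      have hxA : x ∉ σ.filter (fun v => idx v < idx x) := by
        rw [Finset.mem_filter]
        rintro ⟨_, a2⟩
        exact lt_irrefl _ a2
      rw [hA, Finset.sum_insert hxA, add_comm]
      congr 1
      exact Finset.sum_congr rfl fun v hv =>
        h1 v (Finset.mem_filter.1 hv).1 (Finset.mem_filter.1 hv).2
    · rw [add_zero]
      have hA : σ.filter (fun v => idx v ≤ idx x) = σ.filter (fun v => idx v < idx x) := by
        ext v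
        rw [Finset.mem_filter, Finset.mem_filter]
        constructor
        · rintro ⟨a1, a2⟩
          refine ⟨a1, lt_of_le_of_ne a2 fun a3 => ?_⟩
          have := idx_inj h (Finset.mem_insert_of_mem a1) hx a3
          rw [this] at a1
          exact hxs a1
        · rintro ⟨a1, a2⟩
          exact ⟨a1, a2.le⟩
      rw [hA]
      exact Finset.sum_congr rfl fun v hv =>
        h1 v (Finset.mem_filter.1 hv).1 (Finset.mem_filter.1 hv).2
  have e3 : ∑ v ∈ σ.erase x, g v = ∑ v ∈ σ.filter (fun v => idx v < idx x), g v +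
      ∑ v ∈ σ.filter (fun v => idx x < idx v), g v := by
    rw [← Finset.sum_union]
    · apply Finset.sum_congr _ fun _ _ => rfl
      ext v
      rw [Finset.mem_erase, Finset.mem_union, Finset.mem_filter, Finset.mem_filter]
      constructor
      · rintro ⟨a1, a2⟩
        rcases lt_trichotomy (idx v) (idx x) with a3 | a3 | a3
        · exact Or.inl ⟨a2, a3⟩
        · exact absurd (idx_inj h (Finset.mem_insert_of_mem a2) hx a3) a1
        · exact Or.inr ⟨a2, a3⟩
      · rintro (⟨a1, a2⟩ | ⟨a1, a2⟩)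
        · refine ⟨?_, a1⟩
          rintro rfl
          exact lt_irrefl _ a2
        · refine ⟨?_, a1⟩
          rintro rfl
          exact lt_irrefl _ a2
    · rw [Finset.disjoint_left]
      intro v hv hv'
      have a1 := (Finset.mem_filter.1 hv).2
      have a2 := (Finset.mem_filter.1 hv').2
      omega
  rw [e1, e2, e3]
  abel

theorem card_pf {idx : V → ℤ} {w0 : V} {φ : V → V} {σ : Finset V} (h : PrOK idx w0 φ σ) {x : V}
    (hx : x ∈ insert w0 σ) (hx' : idx w0 ≤ idx x) : (pf idx w0 φ x σ).card = σ.card + 1 := by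
  have h1 := sum_pf h hx hx' (fun _ => (1 : ℕ)) (fun _ => 1) (fun _ _ _ => rfl) fun _ _ _ => rfl
  rw [← Finset.card_eq_sum_ones, ← Finset.card_eq_sum_ones] at h1
  rw [h1]
  split_ifs with hxs
  · rw [Finset.card_erase_of_mem hxs]
    have := Finset.card_pos.2 ⟨x, hxs⟩
    omega
  · rw [Finset.erase_eq_of_notMem hxs]

/-- the intermediate faces -/
private noncomputable def Qf (idx : V → ℤ) (w0 : V) (φ : V → V) (σ : Finset V) (m : ℤ) :
    Finset V :=
  σ.filter (fun v => idx v ≤ m) ∪ ((insert w0 σ).filter (fun v => m < idx v)).image φ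

private theorem pf_erase_phi {idx : V → ℤ} {w0 : V} {φ : V → V} {σ : Finset V}
    (h : PrOK idx w0 φ σ) {x : V} (hx : x ∈ insert w0 σ) (hx' : idx w0 ≤ idx x) :
    (pf idx w0 φ x σ).erase (φ x) = Qf idx w0 φ σ (idx x) := by
  have ex := h.2.2 x hx hx'
  ext v
  unfold pf Qf
  simp only [Finset.mem_erase, Finset.mem_union, Finset.mem_filter, Finset.mem_image]
  constructor
  · rintro ⟨a1, a2 | ⟨y, ⟨a2, a3⟩, rfl⟩⟩
    · exact Or.inl a2
    · refine Or.inr ⟨y, ⟨a2, lt_of_le_of_ne a3 fun a4 => a1 ?_⟩, rfl⟩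
      rw [idx_inj h hx a2 a4]
  · rintro (a2 | ⟨y, ⟨a2, a3⟩, rfl⟩)
    · refine ⟨?_, Or.inl a2⟩
      rintro rfl
      have := a2.2
      omega
    · refine ⟨fun a4 => ?_, Or.inr ⟨y, ⟨a2, a3.le⟩, rfl⟩⟩
      have ey := h.2.2 y a2 (hx'.trans a3.le)
      rw [a4] at ey
      omega

private theorem pf_erase_self {idx : V → ℤ} {w0 : V} {φ : V → V} {σ : Finset V}
    (h : PrOK idx w0 φ σ) {x : V} (hx : x ∈ σ) (hx' : idx w0 ≤ idx x) :
    (pf idx w0 φ x σ).erase x = Qf idx w0 φ σ (idx x - 1) := by
  ext v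
  unfold pf Qf
  simp only [Finset.mem_erase, Finset.mem_union, Finset.mem_filter, Finset.mem_image]
  constructor
  · rintro ⟨a1, a2 | ⟨y, ⟨a2, a3⟩, rfl⟩⟩
    · refine Or.inl ⟨a2.1, ?_⟩
      have a3 : idx v ≠ idx x := fun a4 => a1 (h.2.1 v a2.1 x hx a4)
      have := a2.2
      omega
    · exact Or.inr ⟨y, ⟨a2, by omega⟩, rfl⟩
  · rintro (⟨a2, a3⟩ | ⟨y, ⟨a2, a3⟩, rfl⟩)
    · refine ⟨?_, Or.inl ⟨a2, by omega⟩⟩
      rintro rfl
      omega
    · refine ⟨fun a4 => ?_, Or.inr ⟨y, ⟨a2, by omega⟩, rfl⟩⟩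
      have ey := h.2.2 y a2 (by omega)
      rw [a4] at ey
      omega

private theorem pf_erase_lt {idx : V → ℤ} {w0 : V} {φ : V → V} {σ : Finset V}
    (h : PrOK idx w0 φ σ) {x : V} (hx' : idx w0 ≤ idx x) {v : V}
    (hv : v ∈ σ) (hvx : idx v < idx x) :
    (pf idx w0 φ x σ).erase v = pf idx w0 φ x (σ.erase v) := by
  ext u
  unfold pf
  simp only [Finset.mem_erase, Finset.mem_union, Finset.mem_filter, Finset.mem_image,
    Finset.mem_insert]
  constructor
  · rintro ⟨a1, a2 | ⟨y, ⟨a2, a3⟩, rfl⟩⟩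
    · exact Or.inl ⟨⟨a1, a2.1⟩, a2.2⟩
    · refine Or.inr ⟨y, ⟨?_, a3⟩, rfl⟩
      rcases a2 with a2 | a2
      · exact Or.inl a2
      · refine Or.inr ⟨?_, a2⟩
        rintro rfl
        omega
  · rintro (⟨⟨a1, a2⟩, a3⟩ | ⟨y, ⟨a2, a3⟩, rfl⟩)
    · exact ⟨a1, Or.inl ⟨a2, a3⟩⟩
    · have a4 : y ∈ insert w0 σ := by
        rcases a2 with a2 | a2
        · rw [a2]
          exact Finset.mem_insert_self _ _
        · exact Finset.mem_insert_of_mem a2.2
      refine ⟨fun a5 => ?_, Or.inr ⟨y, ⟨Finset.mem_insert.1 a4, a3⟩, rfl⟩⟩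
      have ey := h.2.2 y a4 (hx'.trans a3)
      rw [a5] at ey
      omega

private theorem pf_erase_gt {idx : V → ℤ} {w0 : V} {φ : V → V} {σ : Finset V}
    (h : PrOK idx w0 φ σ) {x : V} (hx' : idx w0 ≤ idx x) {v : V}
    (hv : v ∈ σ) (hvx : idx x < idx v) :
    (pf idx w0 φ x σ).erase (φ v) = pf idx w0 φ x (σ.erase v) := by
  have ev := h.2.2 v (Finset.mem_insert_of_mem hv) (hx'.trans hvx.le)
  ext u
  unfold pf
  simp only [Finset.mem_erase, Finset.mem_union, Finset.mem_filter, Finset.mem_image,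
    Finset.mem_insert]
  constructor
  · rintro ⟨a1, a2 | ⟨y, ⟨a2, a3⟩, rfl⟩⟩
    · refine Or.inl ⟨⟨?_, a2.1⟩, a2.2⟩
      rintro rfl
      omega
    · refine Or.inr ⟨y, ⟨?_, a3⟩, rfl⟩
      rcases a2 with a2 | a2
      · exact Or.inl a2
      · refine Or.inr ⟨?_, a2⟩
        rintro rfl
        exact a1 rfl
  · rintro (⟨⟨a1, a2⟩, a3⟩ | ⟨y, ⟨a2, a3⟩, rfl⟩)
    · refine ⟨?_, Or.inl ⟨a2, a3⟩⟩
      rintro rfl
      omega
    · have a4 : y ∈ insert w0 σ := by
        rcases a2 with a2 | a2
        · rw [a2]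
          exact Finset.mem_insert_self _ _
        · exact Finset.mem_insert_of_mem a2.2
      refine ⟨fun a5 => ?_, Or.inr ⟨y, ⟨Finset.mem_insert.1 a4, a3⟩, rfl⟩⟩
      have ey := h.2.2 y a4 (hx'.trans a3)
      rw [a5] at ey
      have e : y = v := idx_inj h a4 (Finset.mem_insert_of_mem hv) (by omega)
      rcases a2 with a2 | a2
      · rw [a2] at e
        rw [← e] at hv
        exact w0_notMem h hv
      · exact a2.1 e

/-- the telescoping sum -/
private theorem tele {idx : V → ℤ} {w0 : V} {φ : V → V} {σ : Finset V}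
    (h : PrOK idx w0 φ σ) (m : ℤ) (hm : idx w0 ≤ m) :
    ∑ x ∈ ((insert w0 σ).filter (fun v => idx w0 ≤ idx v)).filter (fun v => idx v ≤ m),
      ((if x ∈ σ then Finsupp.single (Qf idx w0 φ σ (idx x - 1)) (1 : ZMod 2) else 0) +
        Finsupp.single (Qf idx w0 φ σ (idx x)) (1 : ZMod 2)) =
      Finsupp.single (Qf idx w0 φ σ m) (1 : ZMod 2) := by
  induction m, hm using Int.leInduction with
  | base =>
    have hB : ((insert w0 σ).filter (fun v => idx w0 ≤ idx v)).filter
        (fun v => idx v ≤ idx w0) = {w0} := by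
      ext v
      rw [Finset.mem_filter, Finset.mem_filter, Finset.mem_singleton]
      constructor
      · rintro ⟨⟨a1, a2⟩, a3⟩
        exact idx_inj h a1 (Finset.mem_insert_self _ _) (le_antisymm a3 a2)
      · rintro rfl
        exact ⟨⟨Finset.mem_insert_self _ _, le_rfl⟩, le_rfl⟩
    rw [hB, Finset.sum_singleton, if_neg (w0_notMem h), zero_add]
  | succ m hm ih =>
    by_cases hx : ∃ x ∈ σ, idx x = m + 1
    · obtain ⟨x, hxs, hxm⟩ := hx
      have hB : ((insert w0 σ).filter (fun v => idx w0 ≤ idx v)).filter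
          (fun v => idx v ≤ m + 1) =
          insert x (((insert w0 σ).filter (fun v => idx w0 ≤ idx v)).filter
            (fun v => idx v ≤ m)) := by
        ext v
        constructor
        · intro hv
          obtain ⟨a0, a3⟩ := Finset.mem_filter.1 hv
          obtain ⟨a1, a2⟩ := Finset.mem_filter.1 a0
          rcases a3.lt_or_eq with a4 | a4
          · exact Finset.mem_insert_of_mem (Finset.mem_filter.2 ⟨a0, by omega⟩)
          · have e := idx_inj h a1 (Finset.mem_insert_of_mem hxs) (by omega)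
            rw [e]
            exact Finset.mem_insert_self _ _
        · intro hv
          rcases Finset.mem_insert.1 hv with e | hv
          · rw [e]
            exact Finset.mem_filter.2
              ⟨Finset.mem_filter.2 ⟨Finset.mem_insert_of_mem hxs, by omega⟩, by omega⟩
          · obtain ⟨a0, a3⟩ := Finset.mem_filter.1 hv
            exact Finset.mem_filter.2 ⟨a0, by omega⟩
      have hxn : x ∉ ((insert w0 σ).filter (fun v => idx w0 ≤ idx v)).filter
            (fun v => idx v ≤ m) := by
        rw [Finset.mem_filter]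
        rintro ⟨_, a2⟩
        omega
      rw [hB, Finset.sum_insert hxn, ih, if_pos hxs, hxm, add_sub_cancel_right, add_assoc,
        add_comm (Finsupp.single (Qf idx w0 φ σ (m + 1)) (1 : ZMod 2)), ← add_assoc,
        ch_add_self, zero_add]
    · have hB : ((insert w0 σ).filter (fun v => idx w0 ≤ idx v)).filter
          (fun v => idx v ≤ m + 1) =
          ((insert w0 σ).filter (fun v => idx w0 ≤ idx v)).filter (fun v => idx v ≤ m) := by
        apply Finset.filter_congr
        intro v a1
        constructor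
        · intro a3
          rcases a3.lt_or_eq with a4 | a4
          · omega
          · rcases Finset.mem_insert.1 (Finset.mem_filter.1 a1).1 with e | a5
            · rw [e] at a4
              omega
            · exact absurd ⟨v, a5, a4⟩ hx
        · intro a3
          omega
      have hQ : Qf idx w0 φ σ (m + 1) = Qf idx w0 φ σ m := by
        unfold Qf
        congr 1
        · apply Finset.filter_congr
          intro v hv
          constructor
          · intro a3
            rcases a3.lt_or_eq with a4 | a4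
            · omega
            · exact absurd ⟨v, hv, a4⟩ hx
          · intro a3
            omega
        · congr 1
          apply Finset.filter_congr
          intro v hv
          constructor
          · intro a3
            omega
          · intro a3
            by_contra a4
            have a5 : idx v = m + 1 := by omega
            rcases Finset.mem_insert.1 hv with rfl | a6
            · omega
            · exact hx ⟨v, a6, a5⟩
      rw [hB, ih, hQ]

theorem bd_prism {idx : V → ℤ} {w0 : V} {φ : V → V} {σ : Finset V} (h : PrOK idx w0 φ σ) :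
    bd (prism idx w0 φ σ) =
      Finsupp.single σ 1 + ∑ v ∈ σ, prism idx w0 φ (σ.erase v) := by
  have hw := w0_notMem h
  -- left side
  have hL : bd (prism idx w0 φ σ) =
      ∑ x ∈ (insert w0 σ).filter (fun v => idx w0 ≤ idx v),
        (∑ v ∈ σ.erase x, Finsupp.single (pf idx w0 φ x (σ.erase v)) (1 : ZMod 2) +
          ((if x ∈ σ then Finsupp.single (Qf idx w0 φ σ (idx x - 1)) (1 : ZMod 2) else 0) +
            Finsupp.single (Qf idx w0 φ σ (idx x)) (1 : ZMod 2))) := by
    unfold prism
    rw [map_sum]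
    refine Finset.sum_congr rfl fun x hx => ?_
    rw [Finset.mem_filter] at hx
    rw [bd_single, sum_pf h hx.1 hx.2 (fun v => Finsupp.single ((pf idx w0 φ x σ).erase v) 1)
      (fun v => Finsupp.single (pf idx w0 φ x (σ.erase v)) (1 : ZMod 2))
      (fun v hv hvx => by rw [pf_erase_lt h hx.2 hv hvx])
      (fun v hv hvx => by rw [pf_erase_gt h hx.2 hv hvx])]
    congr 1
    congr 1
    · split_ifs with hxs
      · rw [pf_erase_self h hxs hx.2]
      · rfl
    · rw [pf_erase_phi h hx.1 hx.2]
  rw [hL, Finset.sum_add_distrib, add_comm]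
  congr 1
  · -- telescoping
    obtain ⟨m, hm1, hm2⟩ : ∃ m : ℤ, idx w0 ≤ m ∧ ∀ x ∈ σ, idx x ≤ m := by
      refine ⟨((insert w0 σ).image idx).max' ⟨idx w0, Finset.mem_image_of_mem _
        (Finset.mem_insert_self _ _)⟩, ?_, ?_⟩
      · exact Finset.le_max' _ _ (Finset.mem_image_of_mem _ (Finset.mem_insert_self _ _))
      · intro x hx
        exact Finset.le_max' _ _ (Finset.mem_image_of_mem _ (Finset.mem_insert_of_mem hx))
    have h1 := tele h m hm1
    have hB : ((insert w0 σ).filter (fun v => idx w0 ≤ idx v)).filter (fun v => idx v ≤ m) =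
        (insert w0 σ).filter (fun v => idx w0 ≤ idx v) := by
      apply Finset.filter_true_of_mem
      intro v hv
      rcases Finset.mem_insert.1 (Finset.mem_filter.1 hv).1 with rfl | hv'
      · exact hm1
      · exact hm2 v hv'
    rw [hB] at h1
    rw [h1]
    have hQ : Qf idx w0 φ σ m = σ := by
      unfold Qf
      have e1 : σ.filter (fun v => idx v ≤ m) = σ := Finset.filter_true_of_mem hm2
      have e2 : (insert w0 σ).filter (fun v => m < idx v) = ∅ := by
        apply Finset.filter_false_of_mem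
        intro v hv
        rcases Finset.mem_insert.1 hv with rfl | hv'
        · omega
        · have := hm2 v hv'
          omega
      rw [e1, e2, Finset.image_empty, Finset.union_empty]
    rw [hQ]
  · -- the other faces: exchange the sums
    unfold prism
    rw [Finset.sum_sigma', Finset.sum_sigma']
    refine Finset.sum_bij' (fun p _ => ⟨p.2, p.1⟩) (fun p _ => ⟨p.2, p.1⟩) ?_ ?_ ?_ ?_ ?_
    · rintro ⟨x, v⟩ hp
      simp only [Finset.mem_sigma, Finset.mem_filter, Finset.mem_erase, Finset.mem_insert]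
        at hp ⊢
      obtain ⟨⟨a1, a2⟩, a3, a4⟩ := hp
      refine ⟨a4, ?_, a2⟩
      rcases a1 with a1 | a1
      · exact Or.inl a1
      · exact Or.inr ⟨fun e => a3 e.symm, a1⟩
    · rintro ⟨v, x⟩ hp
      simp only [Finset.mem_sigma, Finset.mem_filter, Finset.mem_erase, Finset.mem_insert]
        at hp ⊢
      obtain ⟨a1, a2, a3⟩ := hp
      refine ⟨⟨?_, a3⟩, ?_, a1⟩
      · rcases a2 with a2 | a2
        · exact Or.inl a2
        · exact Or.inr a2.2
      · rintro rfl
        rcases a2 with a2 | a2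
        · rw [a2] at a1
          exact hw a1
        · exact a2.1 rfl
    · rintro ⟨x, v⟩ _
      rfl
    · rintro ⟨v, x⟩ _
      rfl
    · rintro ⟨x, v⟩ _
      rfl

theorem prism_fill {idx : V → ℤ} {w0 : V} {φ : V → V} (z : Ch V) (hz : bd z = 0)
    (h : ∀ σ ∈ z.support, PrOK idx w0 φ σ) :
    ∃ y : Ch V, bd y = z ∧
      (∀ τ ∈ y.support, ∃ σ ∈ z.support, ∃ x ∈ insert w0 σ, idx w0 ≤ idx x ∧
        τ = pf idx w0 φ x σ) ∧
      y.support.card ≤ ∑ σ ∈ z.support, (σ.card + 1) := by
  refine ⟨∑ σ ∈ z.support, prism idx w0 φ σ, ?_, ?_, ?_⟩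
  · set P : Ch V →ₗ[ZMod 2] Ch V := Finsupp.lsum (ZMod 2) fun σ : Finset V =>
      LinearMap.toSpanSingleton (ZMod 2) (Ch V) (prism idx w0 φ σ) with hP
    have hPs : ∀ σ : Finset V, P (Finsupp.single σ 1) = prism idx w0 φ σ := by
      intro σ
      rw [hP, Finsupp.lsum_single, LinearMap.toSpanSingleton_apply, one_smul]
    have h1 : P (bd z) = ∑ σ ∈ z.support, ∑ v ∈ σ, prism idx w0 φ (σ.erase v) := by
      rw [bd_apply_sum, map_sum]
      refine Finset.sum_congr rfl fun σ _ => ?_
      rw [map_sum]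
      exact Finset.sum_congr rfl fun v _ => hPs _
    rw [map_sum, Finset.sum_congr rfl fun σ hσ => bd_prism (h σ hσ), Finset.sum_add_distrib,
      ← h1, hz, map_zero, add_zero]
    exact (ch_eq_sum z).symm
  · intro τ hτ
    have h1 := Finsupp.support_finsetSum hτ
    rw [Finset.mem_biUnion] at h1
    obtain ⟨σ, hσ, hτσ⟩ := h1
    unfold prism at hτσ
    have h2 := Finsupp.support_finsetSum hτσ
    rw [Finset.mem_biUnion] at h2
    obtain ⟨x, hx, hτx⟩ := h2
    rw [Finset.mem_filter] at hx
    have h3 := Finset.mem_singleton.1 (Finsupp.support_single_subset hτx)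
    exact ⟨σ, hσ, x, hx.1, hx.2, h3⟩
  · refine (Finset.card_le_card Finsupp.support_finsetSum).trans ?_
    refine Finset.card_biUnion_le.trans ?_
    refine Finset.sum_le_sum fun σ _ => ?_
    unfold prism
    refine (Finset.card_le_card Finsupp.support_finsetSum).trans ?_
    refine Finset.card_biUnion_le.trans ?_
    refine (Finset.sum_le_card_nsmul _ _ 1 fun x _ => ?_).trans ?_
    · refine (Finset.card_le_card Finsupp.support_single_subset).trans ?_
      rw [Finset.card_singleton]
    · rw [smul_eq_mul, mul_one]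
      exact (Finset.card_filter_le _ _).trans (Finset.card_insert_le _ _)

end Vale.P067.PB
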