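import Vale.Agent.Lib.P067.B.Prism
import Vale.Agent.Lib.P067.FlFacts

/-!
# P067 B: the prism inside `Fl`

Situation: `t` is the largest element of `T`, `a'` the largest element of `[a, t) ∖ T`, so `(a', t] ⊆ T` and `t + 1 ∉ T`;
base vertex `w0 = (a', L a')`; `v ∈ L (t+1)`; `φ (i, W) = (i+1, W ⊔ k v)`. `σ ∈ Fl k a b T` has no vertex with index `t`.

`phi_compl`: if `W ⊕ M i = E` and `v ∉ W ⊔ M (i+1)` then `(W ⊔ k v) ⊕ M (i+1) = E`:
`M i = k e_{i+1} ⊕ M (i+1)`; disjoint: `w + c v = m ∈ M (i+1)`, `c ≠ 0` gives `v ∈ W ⊔ M (i+1)`; `c = 0` gives `w ∈ W ⊓ M i = 0`.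
Sum: write `v = w + m`, `w ∈ W`, `m ∈ M i`; `m ∉ M (i+1)` so `m (i+1) ≠ 0`, so `e_{i+1} ∈ W ⊔ k v ⊔ M (i+1)`, so `M i ≤ …`.

`pf_mem_Fl`: let `x` be the splitting vertex. Members of `pf x σ`: (1) `u ∈ σ`, `u.1 ≤ x.1`: all conditions for one vertex hold;
(2) `φ u`, `u ∈ insert w0 σ`, `x.1 ≤ u.1` (so `a' ≤ u.1 < t`, for `u ∈ σ` as `u.1 ≠ t`, `u.1 ≤ t`): `u.1 + 1 ∈ (a', t] ⊆ T`; complement by `phi_compl`
(`u = w0`: `isCompl_L_M`); fixed member `l ∉ T`, `a ≤ l ≤ b`: `l ≤ u.1 + 1` gives `l ≤ u.1` (as `u.1+1 ∈ T`), so `L l ≤ u.2`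
(for `u = w0`: `L_mono`); `u.1 + 1 ≤ l` gives `l > t` (as `l ∉ T`), so `u.2 ≤ L l` and `v ∈ L (t+1) ≤ L l`.
Flag condition between two members: both of type (1): from `σ`. (1)-(2): `u.1 ≤ x.1 ≤ u'.1`: `u.2 ≤ u'.2 ≤ u'.2 ⊔ k v` (if `u' = w0`: `u.1 ≤ a'`
so `u.2 ≤ L a'` since `a' ∉ T` is fixed; `u.1 ≠ a'`), the reverse inequality of indices is impossible (`u'.1 + 1 > u.1`).
(2)-(2): `u.1 + 1 ≤ u'.1 + 1` gives `u.2 ≤ u'.2` (if one of them is `w0`: `L a' ≤ u'.2`, resp. `u.2 ≤ L a'`).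

`not_le_of_vertex`: for `i = w.1`, `a' ≤ i < t`: `L a' ≤ w.2`, and `M (t+1) ≤ M (i+1)`; if `L (t+1) ⊓ M a' ≤ w.2 ⊔ M (i+1)` then
`w.2 ⊔ M (i+1) = ⊤` (every vector is a sum of a vector of `L a'`, one of `L (t+1) ⊓ M a'` and one of `M (t+1)`), so
`e_{i+1} = w + m`, `w = e_{i+1} - m ∈ M i`, so `w = 0` and `e_{i+1} = m ∈ M (i+1)`, contradiction at the coordinate `i+1`.
-/

namespace Vale.P067.PB

open scoped Classical

variable {k : Type*} [Field k]

/-- the vertex map of the prism -/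
noncomputable def phi (v : E k) (u : ℤ × Submodule k (E k)) : ℤ × Submodule k (E k) :=
  (u.1 + 1, u.2 ⊔ Submodule.span k {v})

theorem phi_compl {i : ℤ} {W : Submodule k (E k)} (hW : IsCompl W (M k i)) {v : E k}
    (hv : v ∉ W ⊔ M k (i + 1)) : IsCompl (W ⊔ Submodule.span k {v}) (M k (i + 1)) := by
  have hMM : M k (i + 1) ≤ M k i := M_anti k (by omega)
  constructor
  · rw [Submodule.disjoint_def]
    intro x hx hxM
    obtain ⟨w, hw, y, hy, rfl⟩ := Submodule.mem_sup.1 hx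
    obtain ⟨c, rfl⟩ := Submodule.mem_span_singleton.1 hy
    by_cases hc : c = 0
    · subst hc
      rw [zero_smul, add_zero] at hxM ⊢
      exact (Submodule.disjoint_def.1 hW.disjoint) w hw (hMM hxM)
    · exfalso
      apply hv
      have h1 : v = c⁻¹ • (-w) + c⁻¹ • (w + c • v) := by
        rw [← smul_add, neg_add_cancel_left, smul_smul, inv_mul_cancel₀ hc, one_smul]
      rw [h1]
      exact Submodule.add_mem_sup (W.smul_mem _ (W.neg_mem hw)) (Submodule.smul_mem _ _ hxM)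
  · rw [codisjoint_iff, eq_top_iff, ← hW.sup_eq_top]
    have hvt : v ∈ W ⊔ M k i := by rw [hW.sup_eq_top]; trivial
    obtain ⟨w, hw, m, hm, hwm⟩ := Submodule.mem_sup.1 hvt
    have hm1 : m (i + 1) ≠ 0 := by
      intro h0
      apply hv
      rw [← hwm]
      refine Submodule.add_mem_sup hw ?_
      intro b hb
      rcases lt_or_eq_of_le hb with h | h
      · exact hm b (by omega)
      · rw [h]; exact h0
    have hm2 : m ∈ W ⊔ Submodule.span k {v} := by
      have h1 : m = -w + v := by rw [← hwm]; abel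
      rw [h1]
      exact Submodule.add_mem_sup (W.neg_mem hw) (Submodule.mem_span_singleton_self v)
    refine sup_le (le_sup_left.trans le_sup_left) ?_
    intro y hy
    have h2 : y = (y (i + 1) * (m (i + 1))⁻¹) • m + (y - (y (i + 1) * (m (i + 1))⁻¹) • m) := by
      abel
    rw [h2]
    refine Submodule.add_mem_sup (Submodule.smul_mem _ _ hm2) ?_
    intro b hb
    rw [Finsupp.sub_apply, Finsupp.smul_apply, smul_eq_mul]
    rcases lt_or_eq_of_le hb with h | h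
    · rw [hy b (by omega), hm b (by omega), mul_zero, sub_zero]
    · rw [h, mul_assoc, inv_mul_cancel₀ hm1, mul_one, sub_self]

theorem pf_mem_Fl {a b : ℤ} {T : Finset ℤ} (hT : ∀ i ∈ T, a < i ∧ i < b) {t a' : ℤ} (ht : t ∈ T)
    (hmax : ∀ i ∈ T, i ≤ t) (haa : a ≤ a') (hat : a' < t) (haT : a' ∉ T)
    (hblk : ∀ i, a' < i → i ≤ t → i ∈ T) {σ : Finset (ℤ × Submodule k (E k))}
    (hσ : σ ∈ Fl k a b T) (hσt : ∀ w ∈ σ, w.1 ≠ t) (v : E k) (hv : v ∈ L k (t + 1))
    (hav : ∀ w ∈ insert (a', L k a') σ, a' ≤ w.1 → v ∉ w.2 ⊔ M k (w.1 + 1))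
    {x : ℤ × Submodule k (E k)} (hx : x ∈ insert (a', L k a') σ) (hx' : a' ≤ x.1) :
    pf Prod.fst (a', L k a') (phi v) x σ ∈ Fl k a b T := by
  have hab : a' ≤ b := hat.le.trans (hT t ht).2.le
  have h1 : ∀ u ∈ insert (a', L k a') σ, u.1 < t := by
    intro u hu
    rcases Finset.mem_insert.1 hu with rfl | hu
    · exact hat
    · exact lt_of_le_of_ne (hmax _ (hσ.1 u hu).1) (hσt u hu)
  have h2 : ∀ u ∈ insert (a', L k a') σ, a' ≤ u.1 → u.1 + 1 ∈ T := by
    intro u hu hua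
    have := h1 u hu
    exact hblk _ (by omega) (by omega)
  have h3 : ∀ u ∈ insert (a', L k a') σ, IsCompl u.2 (M k u.1) := by
    intro u hu
    rcases Finset.mem_insert.1 hu with rfl | hu
    · exact isCompl_L_M a'
    · exact (hσ.1 u hu).2.1
  have h5 : ∀ u ∈ insert (a', L k a') σ, ∀ l, a ≤ l → l ≤ b → l ∉ T →
      (l ≤ u.1 → L k l ≤ u.2) ∧ (u.1 ≤ l → u.2 ≤ L k l) := by
    intro u hu
    rcases Finset.mem_insert.1 hu with rfl | hu
    · intro l _ _ _
      exact ⟨fun h => L_mono k h, fun h => L_mono k h⟩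
    · exact (hσ.1 u hu).2.2
  have h6 : ∀ u ∈ insert (a', L k a') σ, ∀ u' ∈ insert (a', L k a') σ, u.1 ≤ u'.1 →
      u.2 ≤ u'.2 := by
    intro u hu u' hu' hle
    rcases Finset.mem_insert.1 hu with hu0 | hu1
    · have hc : u.2 = L k a' := by rw [hu0]
      rw [hc]
      have hc1 : u.1 = a' := by rw [hu0]
      exact (h5 u' hu' a' haa hab haT).1 (by omega)
    · rcases Finset.mem_insert.1 hu' with hu0' | hu1'
      · have hc : u'.2 = L k a' := by rw [hu0']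
        rw [hc]
        have hc1 : u'.1 = a' := by rw [hu0']
        exact (h5 u hu a' haa hab haT).2 (by omega)
      · exact hσ.2 u hu1 u' hu1' hle
  have hcase : ∀ u ∈ pf Prod.fst (a', L k a') (phi v) x σ,
      (u ∈ σ ∧ u.1 ≤ x.1) ∨
        ∃ u' ∈ insert (a', L k a') σ, x.1 ≤ u'.1 ∧ u = phi v u' := by
    intro u hu
    simp only [pf, Finset.mem_union, Finset.mem_filter, Finset.mem_image,
      Finset.mem_insert] at hu
    rcases hu with h | ⟨u', ⟨h7, h8⟩, rfl⟩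
    · exact Or.inl h
    · exact Or.inr ⟨u', Finset.mem_insert.2 h7, h8, rfl⟩
  refine ⟨?_, ?_⟩
  · intro u hu
    rcases hcase u hu with ⟨h, _⟩ | ⟨u', hu', hxu, rfl⟩
    · exact hσ.1 u h
    · have hau : a' ≤ u'.1 := hx'.trans hxu
      refine ⟨h2 u' hu' hau, phi_compl (h3 u' hu') (hav u' hu' hau), ?_⟩
      intro l hl1 hl2 hlT
      constructor
      · intro hle
        change l ≤ u'.1 + 1 at hle
        have hne : l ≠ u'.1 + 1 := fun h => hlT (h ▸ h2 u' hu' hau)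
        exact ((h5 u' hu' l hl1 hl2 hlT).1 (by omega)).trans le_sup_left
      · intro hle
        change u'.1 + 1 ≤ l at hle
        have hlt : t < l := by
          by_contra hcon
          exact hlT (hblk l (by omega) (by omega))
        refine sup_le ((h5 u' hu' l hl1 hl2 hlT).2 (by omega)) ?_
        rw [Submodule.span_singleton_le_iff_mem]
        exact L_mono k (by omega) hv
  · intro u hu w hw hle
    rcases hcase u hu with ⟨h, hux⟩ | ⟨u', hu', hxu, rfl⟩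
    · rcases hcase w hw with ⟨h', _⟩ | ⟨w', hw', hxw, rfl⟩
      · exact hσ.2 u h w h' hle
      · exact (h6 u (Finset.mem_insert_of_mem h) w' hw' (hux.trans hxw)).trans le_sup_left
    · rcases hcase w hw with ⟨h', hwx⟩ | ⟨w', hw', hxw, rfl⟩
      · exfalso
        change u'.1 + 1 ≤ w.1 at hle
        omega
      · change u'.1 + 1 ≤ w'.1 + 1 at hle
        exact sup_le_sup_right (h6 u' hu' w' hw' (by omega)) _

theorem prOK_of_Fl {a b : ℤ} {T : Finset ℤ} {a' : ℤ} (haT : a' ∉ T)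
    {σ : Finset (ℤ × Submodule k (E k))} (hσ : σ ∈ Fl k a b T) (v : E k) :
    PrOK Prod.fst (a', L k a') (phi v) σ := by
  refine ⟨?_, ?_, ?_⟩
  · intro x hx h
    apply haT
    have h1 := (hσ.1 x hx).1
    rwa [h] at h1
  · intro x hx y hy h
    exact Fl_inj hσ hx hy h
  · intro x _ _
    rfl

theorem not_le_of_vertex {a b : ℤ} {T : Finset ℤ} (hT : ∀ i ∈ T, a < i ∧ i < b) {t a' : ℤ}
    (ht : t ∈ T) (haa : a ≤ a') (hat : a' < t) (haT : a' ∉ T)
    {σ : Finset (ℤ × Submodule k (E k))} (hσ : σ ∈ Fl k a b T)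
    {w : ℤ × Submodule k (E k)} (hw : w ∈ insert (a', L k a') σ) (hw1 : a' ≤ w.1)
    (hw2 : w.1 < t) : ¬ (L k (t + 1) ⊓ M k a' ≤ w.2 ⊔ M k (w.1 + 1)) := by
  intro hcon
  have h3 : IsCompl w.2 (M k w.1) := by
    rcases Finset.mem_insert.1 hw with rfl | hw
    · exact isCompl_L_M a'
    · exact (hσ.1 w hw).2.1
  have he : ee k (w.1 + 1) ∈ w.2 ⊔ M k (w.1 + 1) :=
    hcon ⟨ee_mem_L (by omega), ee_mem_M k (by omega)⟩
  obtain ⟨y, hy, m, hm, hym⟩ := Submodule.mem_sup.1 he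
  have hyM : y ∈ M k w.1 := by
    have h4 : y = ee k (w.1 + 1) - m := by rw [← hym]; abel
    rw [h4]
    exact Submodule.sub_mem _ (ee_mem_M k (by omega)) (M_anti k (by omega) hm)
  have hy0 : y = 0 := (Submodule.disjoint_def.1 h3.disjoint) y hy hyM
  rw [hy0, zero_add] at hym
  have h5 := hm (w.1 + 1) le_rfl
  rw [hym] at h5
  simp [ee] at h5

end Vale.P067.PB
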