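import Vale.Agent.Lib.P067.B.PrismFl
import Vale.Agent.Lib.P067.B.Link
import Vale.Agent.Lib.P067.B.Avoid
import Vale.Agent.Lib.P067.B.Loc

/-!
# P067 B: the two steps of bounded filling

`prism_step`: let `t` be the largest element of `T`, `z` a cycle on `Fl k a b T` without vertices of index `t`, support `≤ s'`.
Let `a'` be the largest element of `[a, t) ∖ T` (exists since `a ∉ T`, `a < t`). The subspaces `P_w = w.2 ⊔ M (w.1+1)` for `w = (a', L a')`
and for all vertices `w` of faces of `z` with `a' ≤ w.1` (then `w.1 < t`): at most `N * s' + 1` of them (a face has at most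
`T.card ≤ N` vertices, because the index is injective on it). `not_le_of_vertex` and `exists_avoid` with `D = L (t+1) ⊓ M a'` give
`v`. `prism_fill` with `idx = Prod.fst`, `w0 = (a', L a')`, `φ = phi v` (`prOK_of_Fl`, `pf_mem_Fl`, `card_pf`) gives `y`; the number of faces
is `≤ ∑ (σ.card + 1) ≤ s' * (N + 1)`.

`bfill_succ`: `localize` with `P = {w | w.1 = t}` (each face has at most one by `Fl_inj`): `z = z0 + ∑ y ∈ Y, jn y (w y)`; for `y = (t, W)`,
`link_fill` gives `u y` with `bd (u y) = w y` (faces of `w y` have `j` elements: `insert y τ ∈ z.support` has `j+1`; their other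
vertices have index `≠ t` again by `Fl_inj`). `z' = z + ∑ bd (jn y (u y)) = z0 + ∑ u y` (`bd_jn`; `z + z = 0`), a cycle without vertices
of index `t`, faces with `j+1` elements, in `Fl`, support `≤ s + s * F'`. `prism_step` gives `y'` with `bd y' = z'`; the result is
`y' + ∑ jn y (u y)`.
-/

namespace Vale.P067.PB

open scoped Classical

variable {k : Type*} [Field k] [Finite k]

private theorem card_T_le {N : ℕ} {a b : ℤ} {T : Finset ℤ} (hT : ∀ i ∈ T, a < i ∧ i < b)
    (hb : b ≤ a + N) : T.card ≤ N := by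
  have h1 : T ⊆ Finset.Ioo a b := fun i hi => Finset.mem_Ioo.2 (hT i hi)
  have h2 := Finset.card_le_card h1
  rw [Int.card_Ioo] at h2
  omega

omit [Finite k] in
private theorem card_face_le {N : ℕ} {a b : ℤ} {T : Finset ℤ} (hT : ∀ i ∈ T, a < i ∧ i < b)
    (hb : b ≤ a + N) {σ : Finset (ℤ × Submodule k (E k))} (hσ : σ ∈ Fl k a b T) :
    σ.card ≤ N := by
  refine le_trans ?_ (card_T_le hT hb)
  refine Finset.card_le_card_of_injOn Prod.fst ?_ ?_
  · intro v hv
    exact (hσ.1 v hv).1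
  · intro v hv w hw hvw
    exact Fl_inj hσ hv hw hvw

/-- the largest element of `[a, t) ∖ T` -/
private theorem exists_a' {a b : ℤ} {T : Finset ℤ} (hT : ∀ i ∈ T, a < i ∧ i < b) {t : ℤ}
    (ht : t ∈ T) : ∃ a' : ℤ, a ≤ a' ∧ a' < t ∧ a' ∉ T ∧ ∀ i, a' < i → i ≤ t → i ∈ T := by
  have hat := (hT t ht).1
  have haT : a ∉ T := fun h => lt_irrefl a (hT a h).1
  have hne : ((Finset.Ico a t).filter (fun i => i ∉ T)).Nonempty :=
    ⟨a, Finset.mem_filter.2 ⟨Finset.mem_Ico.2 ⟨le_rfl, hat⟩, haT⟩⟩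
  have hm := Finset.max'_mem _ hne
  have hm' := Finset.mem_filter.1 hm
  have hm2 := Finset.mem_Ico.1 hm'.1
  refine ⟨_, hm2.1, hm2.2, hm'.2, ?_⟩
  intro i h1 h2
  rcases h2.lt_or_eq with h3 | h3
  · by_contra h4
    have h5 := Finset.le_max' _ i (Finset.mem_filter.2
      ⟨Finset.mem_Ico.2 ⟨by omega, h3⟩, h4⟩ : i ∈ (Finset.Ico a t).filter (fun i => i ∉ T))
    omega
  · rw [h3]
    exact ht

theorem prism_step {N : ℕ} {a b : ℤ} {T : Finset ℤ} (hT : ∀ i ∈ T, a < i ∧ i < b)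
    (hb : b ≤ a + N) {t : ℤ} (ht : t ∈ T) (hmax : ∀ i ∈ T, i ≤ t) {j s' : ℕ}
    (hq : N * s' + 1 < Nat.card k) (z : Ch (ℤ × Submodule k (E k)))
    (hz : On (Fl k a b T) j z) (hzt : ∀ σ ∈ z.support, ∀ w ∈ σ, w.1 ≠ t) (hbd : bd z = 0)
    (hs : z.support.card ≤ s') :
    ∃ y, On (Fl k a b T) (j + 1) y ∧ bd y = z ∧ y.support.card ≤ s' * (N + 1) := by
  obtain ⟨a', haa, hat, haT, hblk⟩ := exists_a' hT ht
  -- the relevant vertices
  set A : Finset (ℤ × Submodule k (E k)) :=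
    z.support.biUnion (fun σ => σ.filter (fun w => a' ≤ w.1)) with hA
  set Ps : Finset (Submodule k (E k)) :=
    (insert (a', L k a') A).image (fun w => w.2 ⊔ M k (w.1 + 1)) with hPs
  have hAcard : A.card ≤ N * s' := by
    calc A.card ≤ ∑ σ ∈ z.support, (σ.filter (fun w => a' ≤ w.1)).card := Finset.card_biUnion_le
      _ ≤ ∑ σ ∈ z.support, N := Finset.sum_le_sum fun σ hσ =>
          (Finset.card_filter_le _ _).trans (card_face_le hT hb (hz σ hσ).1)
      _ = z.support.card * N := by rw [Finset.sum_const, smul_eq_mul]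
      _ ≤ s' * N := Nat.mul_le_mul_right _ hs
      _ = N * s' := Nat.mul_comm _ _
  have hPcard : Ps.card < Nat.card k := by
    have h1 : Ps.card ≤ (insert (a', L k a') A).card := Finset.card_image_le
    have h2 : (insert (a', L k a') A).card ≤ A.card + 1 := Finset.card_insert_le _ _
    omega
  have hnot : ∀ P ∈ Ps, ¬ (L k (t + 1) ⊓ M k a' ≤ P) := by
    intro P hP
    obtain ⟨w, hw, rfl⟩ := Finset.mem_image.1 hP
    rcases Finset.mem_insert.1 hw with hw0 | hwA
    · subst hw0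
      exact not_le_of_vertex hT ht haa hat haT (Fl_empty a b T) (Finset.mem_insert_self _ _)
        le_rfl hat
    · obtain ⟨σ, hσ, hwσ⟩ := Finset.mem_biUnion.1 hwA
      obtain ⟨hw1, hw2⟩ := Finset.mem_filter.1 hwσ
      have h1 := (hz σ hσ).1
      have h2 := hmax w.1 (h1.1 w hw1).1
      have h3 := hzt σ hσ w hw1
      exact not_le_of_vertex hT ht haa hat haT h1 (Finset.mem_insert_of_mem hw1) hw2
        (lt_of_le_of_ne h2 h3)
  obtain ⟨v, hvD, hv⟩ := exists_avoid (L k (t + 1) ⊓ M k a') Ps hnot hPcard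
  have hvL : v ∈ L k (t + 1) := (Submodule.mem_inf.1 hvD).1
  have hav : ∀ σ ∈ z.support, ∀ w ∈ insert (a', L k a') σ, a' ≤ w.1 →
      v ∉ w.2 ⊔ M k (w.1 + 1) := by
    intro σ hσ w hw hw1
    refine hv _ (Finset.mem_image.2 ⟨w, ?_, rfl⟩)
    rcases Finset.mem_insert.1 hw with hw0 | hwσ
    · rw [hw0]
      exact Finset.mem_insert_self _ _
    · exact Finset.mem_insert_of_mem
        (Finset.mem_biUnion.2 ⟨σ, hσ, Finset.mem_filter.2 ⟨hwσ, hw1⟩⟩)
  have hOK : ∀ σ ∈ z.support, PrOK Prod.fst (a', L k a') (phi v) σ := fun σ hσ =>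
    prOK_of_Fl haT (hz σ hσ).1 v
  obtain ⟨y, hy1, hy2, hy3⟩ := prism_fill z hbd hOK
  refine ⟨y, ?_, hy1, ?_⟩
  · intro τ hτ
    obtain ⟨σ, hσ, x, hx, hx', rfl⟩ := hy2 τ hτ
    refine ⟨pf_mem_Fl hT ht hmax haa hat haT hblk (hz σ hσ).1 (hzt σ hσ) v hvL (hav σ hσ)
      (Finset.mem_insert.2 ((@Finset.mem_insert _ (_) _ _ _).1 hx)) hx', ?_⟩
    rw [card_pf (hOK σ hσ) hx hx', (hz σ hσ).2]
  · refine hy3.trans ?_
    calc ∑ σ ∈ z.support, (σ.card + 1) ≤ ∑ σ ∈ z.support, (N + 1) :=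
          Finset.sum_le_sum fun σ hσ => Nat.succ_le_succ (card_face_le hT hb (hz σ hσ).1)
      _ = z.support.card * (N + 1) := by rw [Finset.sum_const, smul_eq_mul]
      _ ≤ s' * (N + 1) := Nat.mul_le_mul_right _ hs

end Vale.P067.PB
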