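import Vale.Agent.Lib.P067.B.StepA
import Vale.Agent.Lib.P067.Dec

/-!
# P067 B: the two steps of bounded filling

`prism_step`: let `t` be the largest element of `T`, `z` a cycle on `Fl k a b T` without vertices of index `t`, support `≤ s'`.
Let `a'` be the largest element of `[a, t) ∖ T` (exists since `a ∉ T`, `a < t`). The subspaces `P_w = w.2 ⊔ M (w.1+1)` for `w = (a', L a')`
and for all vertices `w` of faces of `z` with `a' ≤ w.1` (then `w.1 < t`): at most `N * s' + 1` of them (a face has at most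
`T.card ≤ N` vertices, because the index is injective on it). `not_le_of_vertex` and `exists_avoid` with `D = L (t+1) ⊓ M a'` give
`v`. `prism_fill` with `idx = Prod.fst`, `w0 = (a', L a')`, `φ = phi v` (`prOK_of_Fl`, `pf_mem_Fl`, `card_pf`) gives `y`; the number of faces
is `≤ ∑ (σ.card + 1) ≤ s' * (N + 1)`.

`bfill_succ`: `localize` with `P = {w | w.1 = t}` (each face has at most one by `Fl_inj`): `z = z0 + ∑ y ∈ Y, jn y (w y)`; for `y = (t, W)`,
`link_fill` gives `u y` with `bd (u y) = w y` (faces of `w y` have `j` elements: `insert y τ ∈ z.support` has `j+1`; their other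
vertices have index `≠ t` again by `Fl_inj`). `z' = z + ∑ bd (jn y (u y)) = z0 + ∑ u y` (`bd_jn`; `z + z = 0`), a cycle without vertices
of index `t`, faces with `j+1` elements, in `Fl`, support `≤ s + s * F'`. `prism_step` gives `y'` with `bd y' = z'`; the result is
`y' + ∑ jn y (u y)`.
-/

namespace Vale.P067.PB

open scoped Classical

variable {k : Type*} [Field k] [Finite k]

private theorem insert_eq' {V : Type*} [DecidableEq V] (y : V) (τ : Finset V) :
    @insert V (Finset V) (@Finset.instInsert V fun a b => Classical.propDecidable (a = b)) y τ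
      = insert y τ :=
  dec_insert _ _ y τ

theorem bfill_succ {N : ℕ} {a b : ℤ} {T : Finset ℤ} (hT : ∀ i ∈ T, a < i ∧ i < b)
    (hb : b ≤ a + N) {t : ℤ} (ht : t ∈ T) (hmax : ∀ i ∈ T, i ≤ t) {j s F' : ℕ}
    (hBF : BFill (k := k) a b (T.erase t) j s F')
    (hq : N * (s + s * F') + 1 < Nat.card k) :
    BFill (k := k) a b T (j + 1) s ((s + s * F') * (N + 1) + s * F') := by
  intro z hz hbd hs
  obtain ⟨Y, z0, w, hY, hYc, hdec, hz0, hw0⟩ := localize {v : ℤ × Submodule k (E k) | v.1 = t} z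
    (fun σ hσ y hy y' hy' h1 h2 => Fl_inj (hz σ hσ).1 hy hy' (h1.trans h2.symm)) hbd
  have hw : ∀ y ∈ Y, (∀ τ ∈ (w y).support, y ∉ τ ∧ insert y τ ∈ z.support) ∧ bd (w y) = 0 ∧
      (w y).support.card ≤ z.support.card := by
    intro y hy
    obtain ⟨h1, h2, h3⟩ := hw0 y hy
    refine ⟨fun τ hτ => ⟨(h1 τ hτ).1, ?_⟩, h2, h3⟩
    rw [← insert_eq']
    exact (h1 τ hτ).2
  have hYt : ∀ y ∈ Y, y.1 = t := fun y hy => (hY y hy).1
  have hins : ∀ y ∈ Y, ∀ τ : Finset (ℤ × Submodule k (E k)), insert (t, y.2) τ = insert y τ := by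
    intro y hy τ
    have h1 : ((t, y.2) : ℤ × Submodule k (E k)) = y := Prod.ext (hYt y hy).symm rfl
    rw [h1]
  have hex : ∀ y : ℤ × Submodule k (E k), ∃ u : Ch (ℤ × Submodule k (E k)), y ∈ Y →
      ((∀ τ ∈ u.support, (∀ v ∈ τ, v.1 ≠ t) ∧ insert y τ ∈ Fl k a b T ∧ τ.card = j + 1) ∧
        bd u = w y ∧ u.support.card ≤ F') := by
    intro y
    by_cases hy : y ∈ Y
    · obtain ⟨h1, h2, h3⟩ := hw y hy
      obtain ⟨u, hu1, hu2, hu3⟩ := link_fill hT ht hBF y.2 (w y) (by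
        intro τ hτ
        obtain ⟨h4, h5⟩ := h1 τ hτ
        obtain ⟨h6, h7⟩ := hz _ h5
        refine ⟨?_, ?_, ?_⟩
        · intro v hv hvt
          apply h4
          have h8 : v = y := Fl_inj h6 (Finset.mem_insert_of_mem hv)
            (Finset.mem_insert_self y τ) (hvt.trans (hYt y hy).symm)
          rw [← h8]
          exact hv
        · rw [hins y hy]
          exact h6
        · rw [Finset.card_insert_of_notMem h4] at h7
          omega) h2 (h3.trans hs)
      refine ⟨u, fun _ => ⟨fun τ hτ => ?_, hu2, hu3⟩⟩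
      obtain ⟨h4, h5, h6⟩ := hu1 τ hτ
      rw [hins y hy] at h5
      exact ⟨h4, h5, h6⟩
    · exact ⟨0, fun h => absurd h hy⟩
  choose u hu using hex
  have hyu : ∀ y ∈ Y, ∀ τ ∈ (u y).support, y ∉ τ := by
    intro y hy τ hτ hyτ
    exact ((hu y hy).1 τ hτ).1 y hyτ (hYt y hy)
  have hjn : ∀ y ∈ Y, bd (jn y (u y)) = u y + jn y (w y) := by
    intro y hy
    rw [bd_jn y (u y) (hyu y hy), (hu y hy).2.1]
  have hbds : bd (∑ y ∈ Y, jn y (u y)) = ∑ y ∈ Y, u y + ∑ y ∈ Y, jn y (w y) := by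
    rw [map_sum, ← Finset.sum_add_distrib]
    exact Finset.sum_congr rfl hjn
  have hz' : z + bd (∑ y ∈ Y, jn y (u y)) = z0 + ∑ y ∈ Y, u y := by
    rw [hbds]
    have h1 : z + (∑ y ∈ Y, u y + ∑ y ∈ Y, jn y (w y)) =
        (z0 + ∑ y ∈ Y, jn y (w y)) + (∑ y ∈ Y, u y + ∑ y ∈ Y, jn y (w y)) := by
      rw [← hdec]
    rw [h1]
    have h2 := ch_add_self (∑ y ∈ Y, jn y (w y))
    calc (z0 + ∑ y ∈ Y, jn y (w y)) + (∑ y ∈ Y, u y + ∑ y ∈ Y, jn y (w y))
        = z0 + ∑ y ∈ Y, u y + (∑ y ∈ Y, jn y (w y) + ∑ y ∈ Y, jn y (w y)) := by abel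
      _ = z0 + ∑ y ∈ Y, u y := by rw [h2, add_zero]
  have hbz' : bd (z0 + ∑ y ∈ Y, u y) = 0 := by
    rw [← hz', map_add, hbd, bd_bd, add_zero]
  have hmem : ∀ τ ∈ (z0 + ∑ y ∈ Y, u y).support, τ ∈ z0.support ∨ ∃ y ∈ Y, τ ∈ (u y).support := by
    intro τ hτ
    rcases Finset.mem_union.1 (Finsupp.support_add hτ) with h | h
    · exact Or.inl h
    · obtain ⟨y, hy, h1⟩ := Finset.mem_biUnion.1 (Finsupp.support_finsetSum h)
      exact Or.inr ⟨y, hy, h1⟩
  have hcardsum : ∀ f : ℤ × Submodule k (E k) → Ch (ℤ × Submodule k (E k)),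
      (∀ y ∈ Y, (f y).support.card ≤ F') → (∑ y ∈ Y, f y).support.card ≤ s * F' := by
    intro f hf
    refine (Finset.card_le_card Finsupp.support_finsetSum).trans ?_
    refine Finset.card_biUnion_le.trans ?_
    refine (Finset.sum_le_sum hf).trans ?_
    rw [Finset.sum_const, smul_eq_mul]
    exact Nat.mul_le_mul_right _ (hYc.trans hs)
  obtain ⟨y', hy1, hy2, hy3⟩ := prism_step hT hb ht hmax (j := j + 1) hq (z0 + ∑ y ∈ Y, u y) (by
      intro τ hτ
      rcases hmem τ hτ with h | ⟨y, hy, h⟩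
      · exact hz τ (hz0 τ h).1
      · obtain ⟨_, h2, h3⟩ := (hu y hy).1 τ h
        exact ⟨Fl_mono h2 (Finset.subset_insert y τ), h3⟩) (by
      intro τ hτ v hv hvt
      rcases hmem τ hτ with h | ⟨y, hy, h⟩
      · exact (hz0 τ h).2 v hv hvt
      · exact ((hu y hy).1 τ h).1 v hv hvt) hbz' (by
      refine (Finset.card_le_card Finsupp.support_add).trans ?_
      refine (Finset.card_union_le _ _).trans ?_
      refine Nat.add_le_add ?_ (hcardsum u fun y hy => (hu y hy).2.2)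
      exact (Finset.card_le_card fun σ hσ => (hz0 σ hσ).1).trans hs)
  refine ⟨y' + ∑ y ∈ Y, jn y (u y), ?_, ?_, ?_⟩
  · refine hy1.add (On.sum _ _ fun y hy => ?_)
    intro σ hσ
    obtain ⟨τ, hτ, e⟩ := of_mem_support_jn hσ
    rw [insert_eq'] at e
    subst e
    obtain ⟨_, h2, h3⟩ := (hu y hy).1 τ hτ
    exact ⟨h2, by rw [Finset.card_insert_of_notMem (hyu y hy τ hτ), h3]⟩
  · rw [map_add, hy2, ← hz', add_assoc, ch_add_self, add_zero]
  · refine (Finset.card_le_card Finsupp.support_add).trans ?_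
    refine (Finset.card_union_le _ _).trans ?_
    exact Nat.add_le_add hy3 (hcardsum (fun y => jn y (u y)) fun y hy =>
      (card_support_jn y (u y)).trans (hu y hy).2.2)

end Vale.P067.PB
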